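import Vale.Agent.P297.H637.Z2.Spec6

/-!
First order expansions of the family of the two-sections.
-/

set_option linter.unusedSectionVars false
set_option linter.unusedVariables false
set_option linter.style.haveILetI false

open Polynomial

namespace Vale.Agent.P297.Z2

open Vale.Agent.P297 Vale.Agent.P297.Gen Vale.Agent.P297.H72 Vale.Agent.P297.H637
open Vale.Agent.P297.H160.Z2Irr

section sub

variable {N N₁ : Type} [Field N] [Algebra ℂ N] [Field N₁] [Algebra ℂ N₁] [Algebra N N₁]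
  [IsScalarTower ℂ N N₁]

theorem pval_zero {V : Plc N N₁} : PVal V (0 : N₁[X]) (0 : N[X]) := by
  intro n
  rw [coeff_zero, coeff_zero]
  exact V.val_zero

/-- The pairs (polynomial, its reduction) with an expansion of first order. -/
def JSub (V : Plc N N₁) (l : N₁) (hl : V.Val l 0) : Subalgebra ℂ (N₁[X] × N[X]) where
  carrier := {F | ∃ (R : N₁[X]) (R₀ : N[X]), PVal V R R₀ ∧
    F.1 = F.2.map (algebraMap N N₁) + C l * R}
  mul_mem' := by
    rintro ⟨A, B⟩ ⟨A', B'⟩ ⟨R, R₀, h1, h2⟩ ⟨R', R₀', h1', h2'⟩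
    refine ⟨B.map (algebraMap N N₁) * R' + B'.map (algebraMap N N₁) * R + C l * (R * R'),
      B * R₀' + B' * R₀ + C 0 * (R₀ * R₀'), ?_, ?_⟩
    · exact (((PVal.map B).mul h1').add ((PVal.map B').mul h1)).add ((PVal.C hl).mul (h1.mul h1'))
    · change A = B.map _ + _ at h2
      change A' = B'.map _ + _ at h2'
      change A * A' = (B * B').map _ + _
      rw [h2, h2', Polynomial.map_mul]
      ring
  one_mem' := by
    refine ⟨0, 0, pval_zero, ?_⟩
    change (1 : N₁[X]) = (1 : N[X]).map _ + _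
    rw [Polynomial.map_one, mul_zero, add_zero]
  add_mem' := by
    rintro ⟨A, B⟩ ⟨A', B'⟩ ⟨R, R₀, h1, h2⟩ ⟨R', R₀', h1', h2'⟩
    refine ⟨R + R', R₀ + R₀', h1.add h1', ?_⟩
    change A = B.map _ + _ at h2
    change A' = B'.map _ + _ at h2'
    change A + A' = (B + B').map _ + _
    rw [h2, h2', Polynomial.map_add]
    ring
  zero_mem' := by
    refine ⟨0, 0, pval_zero, ?_⟩
    change (0 : N₁[X]) = (0 : N[X]).map _ + _
    rw [Polynomial.map_zero, mul_zero, add_zero]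
  algebraMap_mem' := by
    intro z
    refine ⟨0, 0, pval_zero, ?_⟩
    change algebraMap ℂ N₁[X] z = (algebraMap ℂ N[X] z).map _ + _
    rw [mul_zero, add_zero, Polynomial.algebraMap_apply, Polynomial.algebraMap_apply, map_C,
      IsScalarTower.algebraMap_apply ℂ N N₁]

end sub

namespace FP

variable {N N₁ : Type} [Field N] [Algebra ℂ N] [Field N₁] [Algebra ℂ N₁] [Algebra N N₁]
  [IsScalarTower ℂ N N₁] {V : Plc N N₁} {P : Par} {c₀ : Fin 13 → N} {c₁ y₁ : Fin 13 → N₁}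
  {w : Fin 13 → N} {l : N₁}

/-- **The first order expansions of `Δ` and `ν`.** -/
theorem jets (hl : V.Val l 0) (h1 : ∀ i, c₁ i = algebraMap N N₁ (c₀ i) + l * y₁ i)
    (h2 : ∀ i, V.Val (y₁ i) (w i)) : ∃ (R : Fin 2 → N₁[X]) (R₀ : Fin 2 → N[X]),
      (∀ i, PVal V (R i) (R₀ i)) ∧
      (of c₁).dpoly P = ((of c₀).dpoly P).map (algebraMap N N₁) + C l * R 0 ∧
      (of c₁).npoly P = ((of c₀).npoly P).map (algebraMap N N₁) + C l * R 1 := by
  let T := JSub V l hl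
  let cT : Fin 13 → T := fun i => ⟨(C (c₁ i), C (c₀ i)), C (y₁ i), C (w i), PVal.C (h2 i), by
    change C (c₁ i) = (C (c₀ i)).map _ + _
    rw [h1 i, C_add, C_mul, map_C]⟩
  let XT : T := ⟨(X, X), 0, 0, pval_zero, by
    change (X : N₁[X]) = (X : N[X]).map _ + _
    rw [map_X, mul_zero, add_zero]⟩
  let f1 : T →ₐ[ℂ] N₁[X] := (AlgHom.fst ℂ N₁[X] N[X]).comp T.val
  let f2 : T →ₐ[ℂ] N[X] := (AlgHom.snd ℂ N₁[X] N[X]).comp T.val
  have key : ∀ x : T, ∃ (R : N₁[X]) (R₀ : N[X]), PVal V R R₀ ∧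
      f1 x = (f2 x).map (algebraMap N N₁) + C l * R := fun x => x.2
  have g1 : f1 1 = 1 := map_one f1
  have g2 : f2 1 = 1 := map_one f2
  obtain ⟨A, A₀, a1, a2⟩ := key ((of cT).dlt P XT 1)
  obtain ⟨B, B₀, b1, b2⟩ := key ((of cT).nu P XT 1)
  rw [map_dlt, map_dlt, g1, g2] at a2
  rw [map_nu, map_nu, g1, g2] at b2
  refine ⟨![A, B], ![A₀, B₀], ?_, a2, b2⟩
  rw [Fin.forall_fin_two]
  exact ⟨a1, b1⟩

theorem vals (hl : V.Val l 0) (h1 : ∀ i, c₁ i = algebraMap N N₁ (c₀ i) + l * y₁ i)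
    (h2 : ∀ i, V.Val (y₁ i) (w i)) (i : Fin 13) : V.Val (c₁ i) (c₀ i) := by
  rw [h1 i]
  have h3 := (V.val_const (c₀ i)).add (hl.mul (h2 i))
  rwa [zero_mul, add_zero] at h3

/-- The criterion for the direction. -/
theorem det_ne (hM : P.M1 = 0) (hl : V.Val l 0) (hl0 : l ≠ 0)
    (hc : ∀ i, V.Val (c₁ i) (c₀ i))
    (hb₁ : (of c₁).Base P) {y0 : N} (hy : (of c₀).npoly P = C y0 * (of c₀).dpoly P)
    {R : Fin 2 → N₁[X]} {R₀ : Fin 2 → N[X]} (hR : ∀ i, PVal V (R i) (R₀ i))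
    (hd : (of c₁).dpoly P = ((of c₀).dpoly P).map (algebraMap N N₁) + C l * R 0)
    (hn : (of c₁).npoly P = ((of c₀).npoly P).map (algebraMap N N₁) + C l * R 1)
    {b : N} (hb : (of c₀).dl b 1 ≠ 0)
    (hk : ∃ k ≠ 0, V.Val (((of c₁).hY P (algebraMap N N₁ b) 1 (algebraMap N N₁ y0)) / l) k) :
    y0 * (R₀ 0).eval b - (R₀ 1).eval b ≠ 0 := by
  obtain ⟨k, hk0, hk⟩ := hk
  have hb1 : (of c₁).dl (algebraMap N N₁ b) 1 ≠ 0 :=
    (val_FP (P := P) hc (V.val_const b)).1.ne_zero hb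
  have h1 : (of c₁).hY P (algebraMap N N₁ b) 1 (algebraMap N N₁ y0) =
      l * (algebraMap N N₁ y0 * (R 0).eval (algebraMap N N₁ b) -
        (R 1).eval (algebraMap N N₁ b)) := by
    rw [← eval_HP', hb₁.HP_lin hM hb1, eval_sub, eval_mul, eval_C, eval_C, eval_X, ← dpoly_eval,
      ← npoly_eval, hd, hn, hy, Polynomial.map_mul, map_C, eval_add, eval_add, eval_mul,
      eval_mul, eval_mul, eval_C, eval_C]
    ring
  have h2 : V.Val (algebraMap N N₁ y0 * (R 0).eval (algebraMap N N₁ b) -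
        (R 1).eval (algebraMap N N₁ b)) (y0 * (R₀ 0).eval b - (R₀ 1).eval b) :=
    ((V.val_const y0).mul ((hR 0).eval (V.val_const b))).sub ((hR 1).eval (V.val_const b))
  rw [h1, mul_div_cancel_left₀ _ hl0] at hk
  rw [h2.unique hk]
  exact hk0

end FP

end Vale.Agent.P297.Z2
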