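import Vale.Agent.P297.H637.Z2.Fam6C

/-!
The specialisation of the family of the two-sections to twice a line over `y` and six lines
through the node.
-/

set_option linter.unusedSectionVars false
set_option linter.unusedVariables false
set_option linter.style.haveILetI false

open Polynomial

namespace Vale.Agent.P297.Z2

open Vale.Agent.P297 Vale.Agent.P297.Gen Vale.Agent.P297.H72 Vale.Agent.P297.H637
open Vale.Agent.P297.H160.Z2Irr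

namespace FP

/-- the equation of the surface on the line with parameter `u` -/
noncomputable def lnp {L : Type} [Field L] [Algebra ℂ L] (P : Par) (D : FP L) (u : L) : L[X] :=
  tPhi P (C D.l) (C D.al * X + C (D.pb u)) (C (-D.be) * X + C (D.rb u)) X
    (C (D.sb u) * X + C (D.om u))

variable {K N N₁ : Type} [Field K] [Algebra ℂ K] [Field N] [Algebra ℂ N] [Field N₁] [Algebra ℂ N₁]
  [Algebra N N₁] [IsScalarTower ℂ N N₁] {V : Plc N N₁} {P : Par} {x₀ : Fin 5 → K}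
  {c₀ : Fin 13 → N} {c₁ : Fin 13 → N₁}

/-- The degenerate member. -/
structure Mem (P : Par) (D : FP N) (y0 κ : N) (β : Fin 6 → N) : Prop where
  base : D.Base P
  ny : D.npoly P = C y0 * D.dpoly P
  κ0 : κ ≠ 0
  dA : D.dpoly P = C κ * ∏ j, (X - C (β j))
  gd : (D.gpoly P y0).natDegree = 4
  dβ : ∀ j, D.dl (β j) 1 ≠ 0
  dg : ∀ a, (D.gpoly P y0).eval a = 0 → D.dl a 1 ≠ 0
  h9 : ∀ j, (D.lnp P (β j)).natDegree = 9
  gl : ∀ j y, (D.lnp P (β j)).eval y = 0 → D.Gd P (β j) y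
  gm : ∀ a, (D.gpoly P y0).eval a = 0 → D.Gd P a y0

theorem SF6_Φ {R : Type} [CommRing R] [Algebra ℂ R] (c : Fin 13 → R) (t : R) (g : Fin 2 → R) :
    (SF6 P).Φ R c t g = (of c).FF P t 1 (g 0) (g 1) := rfl

theorem of_C {L : Type} [Field L] (c : Fin 13 → L) :
    of (fun i => (C (c i) : L[X])) = (of c).map C := rfl

theorem SF6_poly {L : Type} [Field L] [Algebra ℂ L] (c : Fin 13 → L) {D : FP L} (hD : D = of c)
    {g : Fin 2 → L[X]} (h0 : g 0 = D.dpoly P) (h1 : g 1 = D.npoly P) :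
    (SF6 P).Φ L[X] (fun i => C (c i)) X g = D.poly P := by
  rw [SF6_Φ, h0, h1, of_C, ← hD]
  unfold poly FE dpoly npoly
  rfl

theorem SF6_eval {L : Type} [Field L] [Algebra ℂ L] (c : Fin 13 → L) {D : FP L} (hD : D = of c)
    (t : L) (ζ : Fin 2 → L) : (SF6 P).Φ L c t ζ = D.FF P t 1 (ζ 0) (ζ 1) := by
  rw [SF6_Φ, ← hD]

/-- **The specialisation of the family.** -/
theorem Mem.spec [IsAlgClosed N] [IsAlgClosed N₁] (hx : H160.Z2Irr.IsFF P x₀) (hM : P.M1 = 0)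
    {y0 κ : N} {β : Fin 6 → N} {D₀ : FP N} {D₁ : FP N₁} (hD₀ : D₀ = of c₀) (hD₁ : D₁ = of c₁)
    (h : Mem P D₀ y0 κ β) (hc : ∀ i, V.Val (c₁ i) (c₀ i)) (hb₁ : D₁.Base P) {l : N₁} (hl : V.Val l 0) (hl0 : l ≠ 0) {R : Fin 2 → N₁[X]}
    {R₀ : Fin 2 → N[X]} (hR : ∀ i, PVal V (R i) (R₀ i))
    (hd : D₁.dpoly P = (D₀.dpoly P).map (algebraMap N N₁) + C l * R 0)
    (hn : D₁.npoly P = (D₀.npoly P).map (algebraMap N N₁) + C l * R 1)
    (hdet : ∀ j, y0 * (R₀ 0).eval (β j) - (R₀ 1).eval (β j) ≠ 0) :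
    (D₁.VV P x₀, ((D₀.gpoly P y0).roots.map
        fun a => H160.Z2Irr.pt x₀ (D₀.qS P a y0)).sum +
      ∑ j, ((D₀.lnp P (β j)).roots.map
        fun y => H160.Z2Irr.pt x₀ (D₀.qS P (β j) y)).sum) ∈ SpecC K V ∧
    (D₁.poly P).natDegree = 58 ∧
    ∀ r, (D₁.poly P).eval r = 0 → D₁.dl r 1 ≠ 0 ∧ D₁.dlt P r 1 ≠ 0 ∧
      D₁.Gd P r (D₁.yy P r) := by
  haveI : CharZero N := charZ
  obtain ⟨hb, hy, hκ, hA, hG, hβ, hGd, h9, hgl, hgm⟩ := h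
  obtain ⟨S, hS⟩ : ∃ S, S = SF6 P := ⟨_, rfl⟩
  obtain ⟨g, ga, gb⟩ : ∃ g : Fin 2 → N₁[X], g 0 = D₁.dpoly P ∧ g 1 = D₁.npoly P :=
    ⟨![D₁.dpoly P, D₁.npoly P], rfl, rfl⟩
  obtain ⟨g₀, g₀a, g₀b⟩ : ∃ g₀ : Fin 2 → N[X], g₀ 0 = D₀.dpoly P ∧ g₀ 1 = D₀.npoly P :=
    ⟨![D₀.dpoly P, D₀.npoly P], rfl, rfl⟩
  obtain ⟨lam, la, lb⟩ : ∃ lam : Fin 2 → N[X], lam 0 = 1 ∧ lam 1 = C y0 :=
    ⟨![1, C y0], rfl, rfl⟩
  have hgR : ∀ i, g i = (g₀ i).map (algebraMap N N₁) + C l * R i := by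
    rw [Fin.forall_fin_two]
    refine ⟨?_, ?_⟩
    · rw [ga, g₀a]
      exact hd
    · rw [gb, g₀b]
      exact hn
  have hgl0 : ∀ i, g₀ i = lam i * D₀.dpoly P := by
    rw [Fin.forall_fin_two]
    refine ⟨?_, ?_⟩
    · rw [g₀a, la, one_mul]
    · rw [g₀b, lb]
      exact hy
  have hF : S.Φ N₁[X] (fun i => C (c₁ i)) X g = D₁.poly P := by
    rw [hS]
    exact SF6_poly c₁ hD₁ ga gb
  have hF' : S.Φ N[X] (fun i => C (c₀ i)) X g₀ = D₀.poly P := by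
    rw [hS]
    exact SF6_poly c₀ hD₀ g₀a g₀b
  have hdl0 : ∀ a, D₀.dlt P a 1 = κ * ∏ j, (a - β j) := by
    intro a
    rw [← dpoly_eval, hA, eval_mul, eval_C, eval_prod]
    simp only [eval_sub, eval_X, eval_C]
  have hnu0 : ∀ a, D₀.nu P a 1 = y0 * D₀.dlt P a 1 := by
    intro a
    rw [← npoly_eval, ← dpoly_eval, hy, eval_mul, eval_C]
  have hGne : D₀.gpoly P y0 ≠ 0 := by
    intro h0
    rw [h0, natDegree_zero] at hG
    exact absurd hG (by norm_num)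
  have hκ9 : κ ^ 9 ≠ 0 := pow_ne_zero 9 hκ
  have hG₀ : C (κ ^ 9) * D₀.gpoly P y0 ≠ 0 := mul_ne_zero (C_ne_zero.2 hκ9) hGne
  have hGdeg : (C (κ ^ 9) * D₀.gpoly P y0).natDegree = 4 := by
    rw [natDegree_C_mul hκ9, hG]
  have hF₀ : S.Φ N[X] (fun i => C (c₀ i)) X g₀ =
      C (κ ^ 9) * D₀.gpoly P y0 * (∏ j, (X - C (β j))) ^ 9 := by
    rw [hF']
    refine eq_of_dl (D := D₀) fun u hu => ?_
    rw [poly_eval, eval_mul, eval_mul, eval_C, eval_pow, eval_prod, gpoly_eval]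
    simp only [eval_sub, eval_X, eval_C]
    have h1 : D₀.FE P u 1 = D₀.dlt P u 1 ^ 9 * (D₀.GP P u 1).eval y0 := by
      rw [eval_eq_sum_range' (Nat.lt_succ_of_le (hb.natDegree_GP hM hu))]
      unfold FE FF
      rw [Finset.mul_sum]
      refine Finset.sum_congr rfl fun j hj => ?_
      have h6 : j ≤ 9 := Nat.lt_succ_iff.1 (Finset.mem_range.1 hj)
      rw [hnu0, mul_pow, show D₀.dlt P u 1 ^ 9 = D₀.dlt P u 1 ^ j * D₀.dlt P u 1 ^ (9 - j) by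
        rw [← pow_add, Nat.add_sub_cancel' h6]]
      ring
    rw [h1, eval_GP', hdl0, mul_pow]
    ring
  have hdeg : (S.Φ N₁[X] (fun i => C (c₁ i)) X g).natDegree ≤
      (C (κ ^ 9) * D₀.gpoly P y0).natDegree + 9 * 6 := by
    rw [hF, hGdeg]
    exact D₁.natDegree_poly P
  have hβd : ∀ j, D₀.dlt P (β j) 1 = 0 := by
    intro j
    rw [hdl0, Finset.prod_eq_zero (Finset.mem_univ j) (sub_self _), mul_zero]
  have hβn : ∀ j, D₀.nu P (β j) 1 = 0 := by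
    intro j
    rw [hnu0, hβd, mul_zero]
  have hQ0 : ∀ j, D₀.lnp P (β j) ≠ 0 := by
    intro j h0
    have h1 := h9 j
    rw [h0, natDegree_zero] at h1
    exact absurd h1 (by norm_num)
  have hck : ∀ j, (2 * D₀.dl (β j) 1 ^ 2) ≠ 0 := fun j =>
    mul_ne_zero two_ne_zero (pow_ne_zero 2 (hβ j))
  have hQ : ∀ j (ζ : Fin 2 → N), ζ 0 ≠ 0 → S.Φ N c₀ (β j) ζ =
      ζ 0 ^ 9 * ((2 * D₀.dl (β j) 1 ^ 2) * (D₀.lnp P (β j)).eval (ζ 1 / ζ 0)) := by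
    intro j ζ h0
    rw [hS, SF6_eval c₀ hD₀, hb.FF_eq hM (hβ j) h0, hb.GP_nline hM (hβ j) (hβd j) (hβn j), eval_mul, eval_C]
    rfl
  have hdet' : ∀ j, (lam 1).eval (β j) * (R₀ 0).eval (β j) - (R₀ 1).eval (β j) ≠ 0 := by
    intro j
    rw [lb, eval_C]
    exact hdet j
  have hps : ∀ {r a y}, V.Val r a → D₀.dl a 1 ≠ 0 → D₁.dlt P r 1 ≠ 0 → V.Val (D₁.yy P r) y →
      D₀.Gd P a y → D₁.FE P r 1 = 0 →
      (H160.Z2Irr.pt x₀ (D₁.pS P r), H160.Z2Irr.pt x₀ (D₀.qS P a y)) ∈ SpecC K V ∧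
      D₁.dl r 1 ≠ 0 ∧ D₁.Gd P r (D₁.yy P r) := by
    intro r a y h1 h2 h3 h4 h5 h6
    rw [hD₁] at h3 h4 h6 hb₁ ⊢
    rw [hD₀] at h2 h5 ⊢
    exact pt_spec hx hM hc hb₁ h1 h2 h3 h4 h5 h6
  have hp1 : ∀ r a, D₁.FE P r 1 = 0 → V.Val r a → (∀ j, β j ≠ a) →
      (C (κ ^ 9) * D₀.gpoly P y0).eval a = 0 →
      (H160.Z2Irr.pt x₀ (D₁.pS P r), H160.Z2Irr.pt x₀ (D₀.qS P a y0)) ∈ SpecC K V ∧
      D₁.dl r 1 ≠ 0 ∧ D₁.dlt P r 1 ≠ 0 ∧ D₁.Gd P r (D₁.yy P r) := by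
    intro r a hr hra ha hga
    have hga' : (D₀.gpoly P y0).eval a = 0 := by
      rw [eval_mul, eval_C] at hga
      exact (mul_eq_zero.1 hga).resolve_left hκ9
    obtain ⟨v1, v2, v3, v4, v5, v6, v7⟩ := val_FP (P := P) hc hra
    rw [← hD₀, ← hD₁] at v6 v7
    have hda : D₀.dlt P a 1 ≠ 0 := by
      rw [hdl0]
      exact mul_ne_zero hκ (Finset.prod_ne_zero_iff.2 fun j _ => sub_ne_zero.2 (ha j).symm)
    have hd₁ : D₁.dlt P r 1 ≠ 0 := v6.ne_zero hda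
    have hyy : V.Val (D₁.yy P r) y0 := by
      have h1 := v7.div v6 hda
      rw [hnu0, mul_div_cancel_right₀ _ hda] at h1
      exact h1
    obtain ⟨k1, k2, k3⟩ := hps hra (hGd a hga') hd₁ hyy (hgm a hga') hr
    exact ⟨k1, k2, hd₁, k3⟩
  have hp2 : ∀ j r (κ' : N₁) (z : Fin 2 → N₁) (ζ : Fin 2 → N),
      D₁.FE P r 1 = 0 → V.Val r (β j) → κ' ≠ 0 →
      (∀ i, (g i).eval r = κ' * z i) → (∀ i, V.Val (z i) (ζ i)) → ζ 0 ≠ 0 →
      S.Φ N c₀ (β j) ζ = 0 →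
      (H160.Z2Irr.pt x₀ (D₁.pS P r), H160.Z2Irr.pt x₀ (D₀.qS P (β j) (ζ 1 / ζ 0))) ∈ SpecC K V ∧
      D₁.dl r 1 ≠ 0 ∧ D₁.dlt P r 1 ≠ 0 ∧ D₁.Gd P r (D₁.yy P r) := by
    intro j r κ' z ζ hr hra hκ' hgz hz hζ0 hzero
    have e1 : D₁.dlt P r 1 = κ' * z 0 := by
      rw [← dpoly_eval, ← ga]
      exact hgz 0
    have e2 : D₁.nu P r 1 = κ' * z 1 := by
      rw [← npoly_eval, ← gb]
      exact hgz 1
    have hz0 : z 0 ≠ 0 := (hz 0).ne_zero hζ0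
    have hd₁ : D₁.dlt P r 1 ≠ 0 := by
      rw [e1]
      exact mul_ne_zero hκ' hz0
    have hyy : V.Val (D₁.yy P r) (ζ 1 / ζ 0) := by
      have h1 := (hz 1).div (hz 0) hζ0
      have h2 : D₁.yy P r = z 1 / z 0 := by
        unfold yy
        rw [e1, e2, mul_div_mul_left _ _ hκ']
      rw [h2]
      exact h1
    have hroot : (D₀.lnp P (β j)).eval (ζ 1 / ζ 0) = 0 := by
      rw [hQ j ζ hζ0] at hzero
      exact (mul_eq_zero.1 ((mul_eq_zero.1 hzero).resolve_left (pow_ne_zero _ hζ0))).resolve_left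
        (hck j)
    obtain ⟨k1, k2, k3⟩ := hps hra (hβ j) hd₁ hyy (hgl j _ hroot) hr
    exact ⟨k1, k2, hd₁, k3⟩
  have key := bl_form2 (K := K) S hl hl0 hc hgR hR hgl0 la hκ hA hG₀ hF₀ hdeg
    (Q := fun b => D₀.lnp P b) (ck := fun b => 2 * D₀.dl b 1 ^ 2) hQ0 h9 hck hQ hdet'
    (fun t => H160.Z2Irr.pt x₀ (D₁.pS P t)) (fun t => H160.Z2Irr.pt x₀ (D₀.qS P t y0))
    (fun b y => H160.Z2Irr.pt x₀ (D₀.qS P b y))
    (fun j => by rw [lb, eval_C])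
    (fun r a hr hra ha hga => (hp1 r a (by rw [← poly_eval, ← hF]; exact hr) hra ha hga).1)
    (fun j r κ' z ζ hr hra hκ' hgz hz hζ0 hzero =>
      (hp2 j r κ' z ζ (by rw [← poly_eval, ← hF]; exact hr) hra hκ' hgz hz hζ0 hzero).1)
  have hcls := root_class S hl hl0 hc hgR hR hgl0 la hκ hA hG₀ hF₀ hdeg
    (Q := fun b => D₀.lnp P b) (ck := fun b => 2 * D₀.dl b 1 ^ 2) hQ0 h9 hck hQ hdet'
  refine ⟨?_, ?_, ?_⟩
  · rw [roots_C_mul _ hκ9, hF] at key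
    unfold VV
    exact key
  · rw [← hF, hcls.1, hGdeg]
  · intro r hr
    have hr' : D₁.FE P r 1 = 0 := by
      rw [← poly_eval]
      exact hr
    rcases hcls.2 r (by rw [hF]; exact hr) with ⟨a, hra, ha, hga⟩ |
      ⟨j, κ', z, ζ, hra, hκ', hgz, hz, hζ0, hzero⟩
    · exact (hp1 r a hr' hra ha hga).2
    · exact (hp2 j r κ' z ζ hr' hra hκ' hgz hz hζ0 hzero).2

end FP

end Vale.Agent.P297.Z2
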