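import Vale.Agent.P297.H637.Jet

/-!
The degeneration lemma for a family given by a homogeneous natural form of degree `D` in two
polynomials which acquire common zeros.
-/

set_option linter.unusedSectionVars false
set_option linter.style.haveILetI false

open Polynomial

namespace Vale.Agent.P297.H637

open Vale.Agent.P297 Vale.Agent.P297.H72

/-- A natural expression `Φ p t g` in parameters `p`, a variable `t` and two elements `g`,
homogeneous of degree `D` in `g`. -/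
structure SForm2 (m D : ℕ) where
  Φ : ∀ (R : Type) [CommRing R] [Algebra ℂ R], (Fin m → R) → R → (Fin 2 → R) → R
  nat : ∀ (R R' : Type) [CommRing R] [Algebra ℂ R] [CommRing R'] [Algebra ℂ R']
    (f : R →ₐ[ℂ] R') (p : Fin m → R) (t : R) (g : Fin 2 → R),
    f (Φ R p t g) = Φ R' (fun i => f (p i)) (f t) (fun i => f (g i))
  hom : ∀ (R : Type) [CommRing R] [Algebra ℂ R] (p : Fin m → R) (t : R) (g : Fin 2 → R) (l : R),
    Φ R p t (fun i => l * g i) = l ^ D * Φ R p t g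

namespace SForm2

variable {m D : ℕ} (S : SForm2 m D)

section alg

variable {L : Type} [Field L] [Algebra ℂ L]

theorem comp_eq (p : Fin m → L) (t : L[X]) (g : Fin 2 → L[X]) (q : L[X]) :
    (S.Φ L[X] (fun i => C (p i)) t g).comp q =
      S.Φ L[X] (fun i => C (p i)) (t.comp q) (fun i => (g i).comp q) := by
  have h := S.nat L[X] L[X] ((aeval q : L[X] →ₐ[L] L[X]).restrictScalars ℂ)
    (fun i => C (p i)) t g
  have h1 : ∀ F : L[X], ((aeval q : L[X] →ₐ[L] L[X]).restrictScalars ℂ) F = F.comp q := by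
    intro F
    rw [AlgHom.restrictScalars_apply]
    exact (comp_eq_aeval (p := F) (q := q)).symm
  simp only [h1, C_comp] at h
  exact h

theorem eval_eq (p : Fin m → L) (t : L[X]) (g : Fin 2 → L[X]) (w : L) :
    (S.Φ L[X] (fun i => C (p i)) t g).eval w =
      S.Φ L p (t.eval w) (fun i => (g i).eval w) := by
  have h := S.nat L[X] L ((aeval w : L[X] →ₐ[L] L).restrictScalars ℂ)
    (fun i => C (p i)) t g
  have h1 : ∀ F : L[X], ((aeval w : L[X] →ₐ[L] L).restrictScalars ℂ) F = F.eval w := by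
    intro F
    rw [AlgHom.restrictScalars_apply]
    exact congrFun (coe_aeval_eq_eval w) F
  simp only [h1, eval_C] at h
  exact h

end alg

section place

variable {N N₁ : Type} [Field N] [Algebra ℂ N] [Field N₁] [Algebra ℂ N₁] [Algebra N N₁]
  [IsScalarTower ℂ N N₁] {P : Plc N N₁}

theorem pval {u : Fin m → N₁} {u₀ : Fin m → N} (hu : ∀ i, P.Val (u i) (u₀ i)) {t : N₁[X]}
    {t₀ : N[X]} (ht : PVal P t t₀) {g : Fin 2 → N₁[X]} {g₀ : Fin 2 → N[X]}
    (hg : ∀ i, PVal P (g i) (g₀ i)) :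
    PVal P (S.Φ N₁[X] (fun i => C (u i)) t g) (S.Φ N[X] (fun i => C (u₀ i)) t₀ g₀) := by
  let T := PSub P
  let U : Fin m → T := fun i => ⟨(C (u i), C (u₀ i)), PVal.C (hu i)⟩
  let τ : T := ⟨(t, t₀), ht⟩
  let G : Fin 2 → T := fun i => ⟨(g i, g₀ i), hg i⟩
  let f1 : T →ₐ[ℂ] N₁[X] := (AlgHom.fst ℂ N₁[X] N[X]).comp T.val
  let f2 : T →ₐ[ℂ] N[X] := (AlgHom.snd ℂ N₁[X] N[X]).comp T.val
  have h1 : f1 (S.Φ T U τ G) = S.Φ N₁[X] (fun i => C (u i)) t g := S.nat T N₁[X] f1 U τ G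
  have h2 : f2 (S.Φ T U τ G) = S.Φ N[X] (fun i => C (u₀ i)) t₀ g₀ := S.nat T N[X] f2 U τ G
  have h3 : PVal P (f1 (S.Φ T U τ G)) (f2 (S.Φ T U τ G)) := (S.Φ T U τ G).2
  rwa [h1, h2] at h3

theorem val {u : Fin m → N₁} {u₀ : Fin m → N} (hu : ∀ i, P.Val (u i) (u₀ i)) {t : N₁} {t₀ : N}
    (ht : P.Val t t₀) {g : Fin 2 → N₁} {g₀ : Fin 2 → N} (hg : ∀ i, P.Val (g i) (g₀ i)) :
    P.Val (S.Φ N₁ u t g) (S.Φ N u₀ t₀ g₀) := by
  let T := VSub P
  let U : Fin m → T := fun i => ⟨(u i, u₀ i), hu i⟩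
  let τ : T := ⟨(t, t₀), ht⟩
  let G : Fin 2 → T := fun i => ⟨(g i, g₀ i), hg i⟩
  let f1 : T →ₐ[ℂ] N₁ := (AlgHom.fst ℂ N₁ N).comp T.val
  let f2 : T →ₐ[ℂ] N := (AlgHom.snd ℂ N₁ N).comp T.val
  have h1 : f1 (S.Φ T U τ G) = S.Φ N₁ u t g := S.nat T N₁ f1 U τ G
  have h2 : f2 (S.Φ T U τ G) = S.Φ N u₀ t₀ g₀ := S.nat T N f2 U τ G
  have h3 : P.Val (f1 (S.Φ T U τ G)) (f2 (S.Φ T U τ G)) := (S.Φ T U τ G).2
  rwa [h1, h2] at h3

end place

end SForm2

section form

variable {K N N₁ : Type} [Field K] [Algebra ℂ K] [Field N] [Algebra ℂ N] [Field N₁] [Algebra ℂ N₁]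
  [Algebra N N₁] [IsScalarTower ℂ N N₁] {P : Plc N N₁}

/-- **The degeneration lemma for forms.** The polynomials `g i` over `N₁` are infinitely near to
`lam i * A₀`, and the zeros `β k` of `A₀` are the centres. -/
theorem bl_form2 [IsAlgClosed N] [IsAlgClosed N₁] {m D : ℕ} (S : SForm2 m D) {l : N₁} (hl : P.Val l 0)
    (hl0 : l ≠ 0) {u : Fin m → N₁} {u₀ : Fin m → N} (hu : ∀ i, P.Val (u i) (u₀ i))
    {g R : Fin 2 → N₁[X]} {g₀ R₀ lam : Fin 2 → N[X]}
    (hg : ∀ i, g i = (g₀ i).map (algebraMap N N₁) + C l * R i) (hR : ∀ i, PVal P (R i) (R₀ i))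
    {A₀ : N[X]} (hg₀ : ∀ i, g₀ i = lam i * A₀) (hlam0 : lam 0 = 1) {k : ℕ} {β : Fin k → N} {κ : N}
    (hκ : κ ≠ 0) (hA₀ : A₀ = C κ * ∏ j, (X - C (β j))) {G₀ : N[X]} (hG₀ : G₀ ≠ 0)
    (hF₀ : S.Φ N[X] (fun i => C (u₀ i)) X g₀ = G₀ * (∏ j, (X - C (β j))) ^ D)
    (hdeg : (S.Φ N₁[X] (fun i => C (u i)) X g).natDegree ≤ G₀.natDegree + D * k)
    {Q : N → N[X]} (hQ0 : ∀ j, Q (β j) ≠ 0) (hQd : ∀ j, (Q (β j)).natDegree = D) {ck : N → N}
    (hck : ∀ j, ck (β j) ≠ 0)
    (hQ : ∀ j (ζ : Fin 2 → N), ζ 0 ≠ 0 →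
      S.Φ N u₀ (β j) ζ = ζ 0 ^ D * (ck (β j) * (Q (β j)).eval (ζ 1 / ζ 0)))
    (hdet : ∀ j, (lam 1).eval (β j) * (R₀ 0).eval (β j) - (R₀ 1).eval (β j) ≠ 0)
    (f : N₁ → ((K →ₐ[ℂ] N₁) →₀ ℤ)) (f₀ : N → ((K →ₐ[ℂ] N) →₀ ℤ))
    (L : N → N → ((K →ₐ[ℂ] N) →₀ ℤ)) (hnode : ∀ j, f₀ (β j) = L (β j) ((lam 1).eval (β j)))
    (hp1 : ∀ r a, (S.Φ N₁[X] (fun i => C (u i)) X g).eval r = 0 → P.Val r a →
      (∀ j, β j ≠ a) → G₀.eval a = 0 → (f r, f₀ a) ∈ SpecC K P)
    (hp2 : ∀ j r (κ' : N₁) (z : Fin 2 → N₁) (ζ : Fin 2 → N),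
      (S.Φ N₁[X] (fun i => C (u i)) X g).eval r = 0 → P.Val r (β j) → κ' ≠ 0 →
      (∀ i, (g i).eval r = κ' * z i) → (∀ i, P.Val (z i) (ζ i)) → ζ 0 ≠ 0 →
      S.Φ N u₀ (β j) ζ = 0 → (f r, L (β j) (ζ 1 / ζ 0)) ∈ SpecC K P) :
    (((S.Φ N₁[X] (fun i => C (u i)) X g).roots.map f).sum,
      (G₀.roots.map f₀).sum + ∑ j, ((Q (β j)).roots.map (L (β j))).sum) ∈ SpecC K P := by
  classical
  set F := S.Φ N₁[X] (fun i => C (u i)) X g with hFdef
  set F₀ := S.Φ N[X] (fun i => C (u₀ i)) X g₀ with hF₀def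
  set s : Finset N := Finset.univ.image β with hs
  set e : N → ℕ := fun c => (Finset.univ.filter fun j => β j = c).card with he
  have hmem : ∀ c ∈ s, ∃ j, β j = c := by
    intro c hc
    obtain ⟨j, -, hj⟩ := Finset.mem_image.1 hc
    exact ⟨j, hj⟩
  have hepos : ∀ c ∈ s, 0 < e c := by
    intro c hc
    obtain ⟨j, hj⟩ := hmem c hc
    exact Finset.card_pos.2 ⟨j, Finset.mem_filter.2 ⟨Finset.mem_univ _, hj⟩⟩
  have hΨ : (∏ j, (X - C (β j)) : N[X]) = ∏ c ∈ s, (X - C c) ^ e c :=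
    Finset.prod_comp (fun c => (X - C c : N[X])) β
  have hΨ0 : (∏ j, (X - C (β j)) : N[X]) ≠ 0 :=
    Finset.prod_ne_zero_iff.2 fun j _ => X_sub_C_ne_zero _
  have hF₀0 : F₀ ≠ 0 := by
    rw [hF₀]
    exact mul_ne_zero hG₀ (pow_ne_zero _ hΨ0)
  have hG : F₀ = G₀ * ∏ c ∈ s, (X - C c) ^ (D * e c) := by
    rw [hF₀, hΨ, ← Finset.prod_pow]
    congr 1
    refine Finset.prod_congr rfl fun c _ => ?_
    rw [← pow_mul, mul_comm]
  have hgv : ∀ i, PVal P (g i) (g₀ i) := by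
    intro i
    rw [hg i]
    have h1 := (PVal.map (P := P) (g₀ i)).add ((PVal.C hl).mul (hR i))
    rwa [C_0, zero_mul, add_zero] at h1
  have hF : PVal P F F₀ := S.pval hu PVal.X hgv
  have hd0 : F₀.natDegree = G₀.natDegree + D * k := by
    rw [hF₀, natDegree_mul hG₀ (pow_ne_zero _ hΨ0), natDegree_pow]
    congr 2
    rw [natDegree_prod _ _ fun j _ => X_sub_C_ne_zero _]
    simp
  have hd : F.natDegree = F₀.natDegree := by
    apply le_antisymm
    · rw [hd0]
      exact hdeg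
    · refine le_natDegree_of_ne_zero ?_
      have h1 := hF F₀.natDegree
      exact h1.ne_zero (leadingCoeff_ne_zero.2 hF₀0)
  -- the cofactors
  obtain ⟨Qc, hAQ, hκc⟩ : ∃ Qc : N → N[X], (∀ c ∈ s, A₀ = (X - C c) ^ e c * Qc c) ∧
      ∀ c ∈ s, (Qc c).eval c ≠ 0 := by
    refine ⟨fun c => C κ * ∏ b ∈ s.erase c, (X - C b) ^ e b, ?_, ?_⟩
    · intro c hc
      rw [hA₀, hΨ, ← Finset.mul_prod_erase s _ hc]
      ring
    · intro c hc
      rw [eval_mul, eval_C, eval_prod]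
      refine mul_ne_zero hκ (Finset.prod_ne_zero_iff.2 fun b hb => ?_)
      rw [eval_pow, eval_sub, eval_X, eval_C]
      refine pow_ne_zero _ (sub_ne_zero.2 ?_)
      rintro rfl
      exact (Finset.notMem_erase c s) hb
  -- the scales
  have hsc : ∀ c, ∃ ε : N₁, c ∈ s → (ε ^ e c = l ∧ ε ≠ 0 ∧ P.Val ε 0) := by
    intro c
    by_cases hc : c ∈ s
    · obtain ⟨ε, h1⟩ := exists_root_pow hl hl0 (hepos c hc)
      exact ⟨ε, fun _ => h1⟩
    · exact ⟨0, fun h => absurd h hc⟩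
  choose ε hε using hsc
  -- the scaled polynomials
  have hjet : ∀ c i, ∃ B : N₁[X], c ∈ s →
      ((g i).comp (C (algebraMap N N₁ c) + C (ε c) * X) = C l * B ∧
      PVal P B (C ((lam i * Qc c).eval c) * X ^ e c + C ((R₀ i).eval c))) := by
    intro c i
    by_cases hc : c ∈ s
    · obtain ⟨h1, h2, h3⟩ := hε c hc
      obtain ⟨B, hB⟩ := jet_comp (c := c) (Q := lam i * Qc c) (hg i) (hR i)
        (by rw [hg₀ i, hAQ c hc]; ring) h1 h3
      exact ⟨B, fun _ => hB⟩
    · exact ⟨0, fun h => absurd h hc⟩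
  choose B hB using hjet
  set Fc : N → N₁[X] := fun c =>
    S.Φ N₁[X] (fun i => C (u i)) (C (algebraMap N N₁ c) + C (ε c) * X) (B c) with hFc
  set Fc₀ : N → N[X] := fun c => S.Φ N[X] (fun i => C (u₀ i)) (C c)
    (fun i => C ((lam i * Qc c).eval c) * X ^ e c + C ((R₀ i).eval c)) with hFc₀
  set Rc : N → N[X] := fun c => S.Φ N[X] (fun i => C (u₀ i)) (C c)
    (fun i => C ((lam i * Qc c).eval c) * X + C ((R₀ i).eval c)) with hRc
  have hcomp : ∀ c ∈ s, F.comp (C (algebraMap N N₁ c) + C (ε c) * X) = C (l ^ D) * Fc c := by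
    intro c hc
    rw [hFdef, S.comp_eq, X_comp]
    have h1 : (fun i => (g i).comp (C (algebraMap N N₁ c) + C (ε c) * X)) =
        fun i => C l * B c i := funext fun i => (hB c i hc).1
    rw [h1, S.hom, C_pow]
  have hFcv : ∀ c ∈ s, PVal P (Fc c) (Fc₀ c) := fun c hc =>
    S.pval hu (pval_line c (hε c hc).2.2) fun i => (hB c i hc).2
  have hFR : ∀ c, Fc₀ c = (Rc c).comp (X ^ e c) := by
    intro c
    change S.Φ N[X] (fun i => C (u₀ i)) (C c) _ =
      (S.Φ N[X] (fun i => C (u₀ i)) (C c) _).comp (X ^ e c)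
    rw [S.comp_eq, C_comp]
    congr 1
    funext i
    rw [add_comp, mul_comp, C_comp, X_comp, C_comp]
  -- the Moebius transformation
  have hlamc : ∀ c, (lam 0 * Qc c).eval c = (Qc c).eval c := fun c => by rw [hlam0, one_mul]
  have hmoe : ∀ c ∈ s, Rc c ≠ 0 ∧ (Rc c).natDegree ≤ D ∧ (Q c).roots =
      (Rc c).roots.map (fun w => ((lam 1 * Qc c).eval c * w + (R₀ 1).eval c) /
        ((Qc c).eval c * w + (R₀ 0).eval c)) +
      Multiset.replicate (D - (Rc c).natDegree) ((lam 1).eval c) ∧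
      ∀ w ∈ (Rc c).roots, (Qc c).eval c * w + (R₀ 0).eval c ≠ 0 := by
    intro c hc
    obtain ⟨j, rfl⟩ := hmem c hc
    set c := β j with hcj
    have hκ1 := hκc c hc
    obtain ⟨h1, h2, h3, h4⟩ := roots_moebius_full (Q := C (ck c) * Q c) (R := Rc c) (d := D)
      (α := (lam 1 * Qc c).eval c) (β := (R₀ 1).eval c) (γ := (Qc c).eval c)
      (δ := (R₀ 0).eval c) (mul_ne_zero (C_ne_zero.2 (hck j)) (hQ0 j))
      (by rw [natDegree_C_mul (hck j)]; exact hQd j)
      (by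
        rw [eval_mul]
        intro h0
        apply mul_ne_zero hκ1 (hdet j)
        linear_combination h0)
      (by
        intro w hw
        have h5 : (Rc c).eval w = S.Φ N u₀ c
            (fun i => (lam i * Qc c).eval c * w + (R₀ i).eval c) := by
          change (S.Φ N[X] (fun i => C (u₀ i)) (C c) _).eval w = _
          rw [S.eval_eq, eval_C]
          congr 1
          funext i
          rw [eval_add, eval_mul, eval_C, eval_X, eval_C]
        rw [h5, hQ j _ (by rw [hlamc]; exact hw), hlamc, eval_C_mul])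
    refine ⟨h1, h2, ?_, h4⟩
    rw [roots_C_mul _ (hck j)] at h3
    rw [h3]
    congr 2
    rw [eval_mul, mul_div_cancel_right₀ _ hκ1]
  have hFc0 : ∀ c ∈ s, Fc₀ c ≠ 0 := by
    intro c hc
    rw [hFR c]
    intro h0
    have h1 := roots_comp_pow (hmoe c hc).1 (hepos c hc)
    have h2 : (Fc₀ c).natDegree = (Rc c).natDegree * e c := by
      rw [hFR c, natDegree_comp, natDegree_X_pow]
    rcases Nat.eq_zero_or_pos (Rc c).natDegree with h3 | h3
    · obtain ⟨a, ha⟩ := natDegree_eq_zero.1 h3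
      rw [← ha, C_comp] at h0
      apply (hmoe c hc).1
      rw [← ha, h0]
    · have h4 := Nat.mul_pos h3 (hepos c hc)
      rw [← h2, hFR c, h0, natDegree_zero] at h4
      exact absurd h4 (lt_irrefl _)
  have hFcd : ∀ c, (Fc₀ c).natDegree = (Rc c).natDegree * e c := fun c => by
    rw [hFR c, natDegree_comp, natDegree_X_pow]
  have key := bl_full (K := K) hF hF₀0 hd s (fun c => D * e c) hG ε (fun c hc => (hε c hc).2.2)
    (fun c hc => (hε c hc).2.1) Fc Fc₀ (fun _ => l ^ D) (fun _ _ => pow_ne_zero _ hl0) hFcv hFc0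
    (fun c hc => by
      rw [hFcd c]
      exact Nat.mul_le_mul_right _ (hmoe c hc).2.1) hcomp f f₀
    (fun c w => L c (((lam 1 * Qc c).eval c * w ^ e c + (R₀ 1).eval c) /
        ((Qc c).eval c * w ^ e c + (R₀ 0).eval c))) ?_ ?_ ?_
  · -- rewriting the limit
    have h1 : ∀ c ∈ s, ((Fc₀ c).roots.map (fun w => L c (((lam 1 * Qc c).eval c * w ^ e c +
        (R₀ 1).eval c) / ((Qc c).eval c * w ^ e c + (R₀ 0).eval c)))).sum +
        (D * e c - (Fc₀ c).natDegree) • f₀ c = e c • ((Q c).roots.map (L c)).sum := by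
      intro c hc
      obtain ⟨j, hj⟩ := hmem c hc
      have h2 := roots_comp_pow (hmoe c hc).1 (hepos c hc)
      rw [← hFR c] at h2
      have h3 : ((Fc₀ c).roots.map (fun w => L c (((lam 1 * Qc c).eval c * w ^ e c +
          (R₀ 1).eval c) / ((Qc c).eval c * w ^ e c + (R₀ 0).eval c)))) =
          (((Fc₀ c).roots.map (fun t => t ^ e c)).map
            (fun w => ((lam 1 * Qc c).eval c * w + (R₀ 1).eval c) /
              ((Qc c).eval c * w + (R₀ 0).eval c))).map (L c) := by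
        rw [Multiset.map_map, Multiset.map_map]
        rfl
      rw [h3, h2, Multiset.map_nsmul, Multiset.map_nsmul, Multiset.sum_nsmul, hFcd c,
        (hmoe c hc).2.2.1, Multiset.map_add, Multiset.sum_add, Multiset.map_replicate,
        Multiset.sum_replicate, smul_add]
      congr 1
      have h4 : f₀ c = L c ((lam 1).eval c) := by rw [← hj]; exact hnode j
      rw [h4, smul_smul, Nat.mul_sub, mul_comm (e c) D, mul_comm (e c) (Rc c).natDegree]
    rw [Finset.sum_congr rfl h1] at key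
    have h5 : ∑ j, ((Q (β j)).roots.map (L (β j))).sum =
        ∑ c ∈ s, e c • ((Q c).roots.map (L c)).sum :=
      Finset.sum_comp (fun c => ((Q c).roots.map (L c)).sum) β
    rw [h5]
    exact key
  · intro r a hr hra has ha
    refine hp1 r a hr hra (fun j hj => has ?_) ha
    rw [← hj]
    exact Finset.mem_image_of_mem _ (Finset.mem_univ j)
  · intro c hc r w hr hrw hw
    obtain ⟨h1, h2, h3⟩ := hε c hc
    obtain ⟨j, hj⟩ := hmem c hc
    have hrc : C (algebraMap N N₁ c) + C (ε c) * X = (C (algebraMap N N₁ c) + C (ε c) * X : N₁[X]) :=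
      rfl
    have hr' : algebraMap N N₁ c + ε c * scl (algebraMap N N₁ c) (ε c) r = r := scl_eq h2 r
    have hvr : P.Val r c := by
      have h4 := (P.val_const c).add (h3.mul hrw)
      rwa [hr', zero_mul, add_zero] at h4
    have hw' : (Rc c).eval (w ^ e c) = 0 := by
      rw [hFR c, eval_comp, eval_pow, eval_X] at hw
      exact hw
    have hne : (Qc c).eval c * w ^ e c + (R₀ 0).eval c ≠ 0 :=
      (hmoe c hc).2.2.2 _ ((mem_roots (hmoe c hc).1).2 hw')
    have h5 := hp2 j r l (fun i => (B c i).eval (scl (algebraMap N N₁ c) (ε c) r))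
      (fun i => (lam i * Qc c).eval c * w ^ e c + (R₀ i).eval c) hr (by rw [hj]; exact hvr) hl0
      ?_ ?_ ?_ ?_
    · rw [hj] at h5
      change (f r, L c _) ∈ SpecC K P
      rw [hlamc] at h5
      exact h5
    · intro i
      have h6 := congrArg (eval (scl (algebraMap N N₁ c) (ε c) r)) (hB c i hc).1
      rw [eval_comp, eval_add, eval_C, eval_mul, eval_C, eval_X, hr', eval_mul, eval_C] at h6
      exact h6
    · intro i
      have h6 := (hB c i hc).2.eval hrw
      rw [eval_add, eval_mul, eval_C, eval_pow, eval_X, eval_C] at h6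
      exact h6
    · rw [hlamc]
      exact hne
    · rw [hj]
      have h6 : (Rc c).eval (w ^ e c) = S.Φ N u₀ c
          (fun i => (lam i * Qc c).eval c * w ^ e c + (R₀ i).eval c) := by
        change (S.Φ N[X] (fun i => C (u₀ i)) (C c) _).eval (w ^ e c) = _
        rw [S.eval_eq, eval_C]
        congr 1
        funext i
        rw [eval_add, eval_mul, eval_C, eval_X, eval_C]
      rw [← h6]
      exact hw'
  · intro c hc r hr hrc hs0 hsi
    obtain ⟨h1, h2, h3⟩ := hε c hc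
    obtain ⟨j, hj⟩ := hmem c hc
    set t := scl (algebraMap N N₁ c) (ε c) r with ht
    have hr' : algebraMap N N₁ c + ε c * t = r := scl_eq h2 r
    have hgr : ∀ i, (g i).eval r = (l * t ^ e c) * (((lam i * Qc c).map (algebraMap N N₁)).eval r +
        t⁻¹ ^ e c * (R i).eval r) := by
      intro i
      have h4 : r - algebraMap N N₁ c = ε c * t := by rw [← hr']; ring
      rw [hg i, hg₀ i, hAQ c hc, eval_add, eval_mul, eval_C, Polynomial.map_mul,
        Polynomial.map_mul, Polynomial.map_mul, Polynomial.map_pow, Polynomial.map_sub, map_X,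
        map_C, eval_mul, eval_mul, eval_mul, eval_pow, eval_sub, eval_X, eval_C, h4, mul_pow, h1]
      have h5 : t ^ e c * t⁻¹ ^ e c = 1 := by rw [← mul_pow, mul_inv_cancel₀ hs0, one_pow]
      linear_combination -(l * (R i).eval r) * h5
    have hval : ∀ i, P.Val (((lam i * Qc c).map (algebraMap N N₁)).eval r +
        t⁻¹ ^ e c * (R i).eval r) ((lam i * Qc c).eval c) := by
      intro i
      have h4 := ((PVal.map (P := P) (lam i * Qc c)).eval hrc).add
        ((hsi.pow (e c)).mul ((hR i).eval hrc))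
      rwa [zero_pow (hepos c hc).ne', zero_mul, add_zero] at h4
    have hζ0 : (lam 0 * Qc c).eval c ≠ 0 := by
      rw [hlamc]
      exact hκc c hc
    have hκ' : l * t ^ e c ≠ 0 := mul_ne_zero hl0 (pow_ne_zero _ hs0)
    have hzero : S.Φ N u₀ c (fun i => (lam i * Qc c).eval c) = 0 := by
      have h4 : F.eval r = S.Φ N₁ u r (fun i => (g i).eval r) := by
        rw [hFdef, S.eval_eq, eval_X]
      have h5 : (fun i => (g i).eval r) = fun i => (l * t ^ e c) *
          (((lam i * Qc c).map (algebraMap N N₁)).eval r + t⁻¹ ^ e c * (R i).eval r) :=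
        funext hgr
      rw [hr, h5, S.hom] at h4
      have h6 := (mul_eq_zero.1 h4.symm).resolve_left (pow_ne_zero _ hκ')
      have h7 := S.val (P := P) hu hrc hval
      rw [h6] at h7
      exact h7.unique P.val_zero
    have h8 := hp2 j r (l * t ^ e c) _ (fun i => (lam i * Qc c).eval c) hr
      (by rw [hj]; exact hrc) hκ' hgr hval hζ0 (by rw [hj]; exact hzero)
    have h9 : f₀ c = L c ((lam 1).eval c) := by rw [← hj]; exact hnode j
    rw [h9]
    rw [hj, hlamc, eval_mul, mul_div_cancel_right₀ _ (hκc c hc)] at h8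
    exact h8

end form

end Vale.Agent.P297.H637
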