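import Vale.Agent.P297.H637.Z2.Phi2
import Vale.Agent.P297.H637.Z2.Sec
import Vale.Agent.P297.H721.Z2.Pts
import Vale.Agent.P297.H424.Z2.Iface
import Vale.Agent.P297.H940.Z2.Inst

/-!
The family of the two-sections of the double planes through a node: the curves
`y = (A4 - ω ^ 2) / (2 s ω - A3)`, `S = s y + ω` over the conic `s ^ 2 = A2`.
-/

set_option linter.unusedSectionVars false
set_option linter.unusedVariables false

open Polynomial

namespace Vale.Agent.P297.Z2

open Vale.Agent.P297 Vale.Agent.P297.Gen Vale.Agent.P297.H72 Vale.Agent.P297.H637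
open Vale.Agent.P297.H160.Z2Irr

/-- The parameters of a member: the node, the point `(ps, rs, ss)` of the conic, the direction
`(k1, k2)` of the plane, `A2 = ss ^ 2 + a h + b h ^ 2` on the plane, and
`ω = -(p ^ 2 - r ^ 2) + b1 h + c0 + d s`. -/
structure FP (R : Type) where
  l : R
  al : R
  be : R
  ps : R
  rs : R
  ss : R
  k1 : R
  k2 : R
  a : R
  b : R
  b1 : R
  c0 : R
  d : R

namespace FP

/-- the parameters from a vector -/
def of {R : Type} (c : Fin 13 → R) : FP R :=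
  ⟨c 0, c 1, c 2, c 3, c 4, c 5, c 6, c 7, c 8, c 9, c 10, c 11, c 12⟩

def map {R R' : Type} (D : FP R) (f : R → R') : FP R' :=
  ⟨f D.l, f D.al, f D.be, f D.ps, f D.rs, f D.ss, f D.k1, f D.k2, f D.a, f D.b, f D.b1, f D.c0,
    f D.d⟩

theorem map_of {R R' : Type} (c : Fin 13 → R) (f : R → R') :
    (of c).map f = of (fun i => f (c i)) := rfl

section ring

variable {R : Type} [CommRing R] (D : FP R)

/-- `δ = u ^ 2 - b v ^ 2` -/
def dl (u v : R) : R := u ^ 2 - D.b * v ^ 2

/-- `δ h` -/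
def ht (u v : R) : R := (D.a * v - 2 * D.ss * u) * v

/-- `δ p` -/
def pt (u v : R) : R := D.ps * D.dl u v + D.k1 * D.ht u v

/-- `δ r` -/
def rt (u v : R) : R := D.rs * D.dl u v + D.k2 * D.ht u v

/-- `δ s` -/
def st (u v : R) : R := -(D.ss * u ^ 2) + D.a * u * v - D.b * D.ss * v ^ 2

/-- `δ (ω + p ^ 2 - r ^ 2)` -/
def wt (u v : R) : R := D.b1 * D.ht u v + D.c0 * D.dl u v + D.d * D.st u v

/-- `δ (S + p ^ 2 - r ^ 2)` over `Y` -/
def S1 (u v Y : R) : R := D.wt u v + D.st u v * Y +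
  2 * (D.al * D.pt u v + D.be * D.rt u v) * Y + (D.al ^ 2 - D.be ^ 2) * D.dl u v * Y ^ 2

theorem st_sq (u v : R) : D.st u v ^ 2 = D.ss ^ 2 * D.dl u v ^ 2 + D.a * D.ht u v * D.dl u v +
    D.b * D.ht u v ^ 2 := by
  unfold st dl ht
  ring

theorem dl_smul (t u v : R) : D.dl (t * u) (t * v) = t ^ 2 * D.dl u v := by
  unfold dl
  ring

theorem ht_smul (t u v : R) : D.ht (t * u) (t * v) = t ^ 2 * D.ht u v := by
  unfold ht
  ring

theorem st_smul (t u v : R) : D.st (t * u) (t * v) = t ^ 2 * D.st u v := by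
  unfold st
  ring

theorem pt_smul (t u v : R) : D.pt (t * u) (t * v) = t ^ 2 * D.pt u v := by
  unfold pt
  rw [dl_smul, ht_smul]
  ring

theorem rt_smul (t u v : R) : D.rt (t * u) (t * v) = t ^ 2 * D.rt u v := by
  unfold rt
  rw [dl_smul, ht_smul]
  ring

theorem wt_smul (t u v : R) : D.wt (t * u) (t * v) = t ^ 2 * D.wt u v := by
  unfold wt
  rw [dl_smul, ht_smul, st_smul]
  ring

theorem S1_smul (t u v Y : R) : D.S1 (t * u) (t * v) Y = t ^ 2 * D.S1 u v Y := by
  unfold S1
  rw [wt_smul, st_smul, pt_smul, rt_smul, dl_smul]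
  ring

end ring

section form

variable {R : Type} [CommRing R] [Algebra ℂ R] (P : Par) (D : FP R)

/-- `δ ^ 3 (S ^ 2 - B)` over `Y` -/
def hY (u v Y : R) : R := tCb P D.l Y (D.dl u v) (D.pt u v + D.al * D.dl u v * Y)
  (D.rt u v - D.be * D.dl u v * Y) (D.S1 u v Y)

/-- `2 δ ^ 2 Φ` over `Y`, modulo `S ^ 2 - B` -/
def gY (u v Y : R) : R := tQd P D.l Y (D.dl u v) (D.pt u v + D.al * D.dl u v * Y)
  (D.rt u v - D.be * D.dl u v * Y) (D.S1 u v Y)

theorem hY_smul (t u v Y : R) : D.hY P (t * u) (t * v) Y = t ^ 6 * D.hY P u v Y := by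
  unfold hY
  rw [dl_smul, pt_smul, rt_smul, S1_smul,
    show t ^ 2 * D.pt u v + D.al * (t ^ 2 * D.dl u v) * Y =
      t ^ 2 * (D.pt u v + D.al * D.dl u v * Y) by ring,
    show t ^ 2 * D.rt u v - D.be * (t ^ 2 * D.dl u v) * Y =
      t ^ 2 * (D.rt u v - D.be * D.dl u v * Y) by ring, tCb_smul, ← pow_mul]

theorem gY_smul (t u v Y : R) : D.gY P (t * u) (t * v) Y = t ^ 4 * D.gY P u v Y := by
  unfold gY
  rw [dl_smul, pt_smul, rt_smul, S1_smul,
    show t ^ 2 * D.pt u v + D.al * (t ^ 2 * D.dl u v) * Y =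
      t ^ 2 * (D.pt u v + D.al * D.dl u v * Y) by ring,
    show t ^ 2 * D.rt u v - D.be * (t ^ 2 * D.dl u v) * Y =
      t ^ 2 * (D.rt u v - D.be * D.dl u v * Y) by ring, tQd_smul, ← pow_mul]

variable {R' : Type} [CommRing R'] [Algebra ℂ R'] (f : R →ₐ[ℂ] R')

theorem map_hY (u v Y : R) : f (D.hY P u v Y) = (D.map f).hY P (f u) (f v) (f Y) := by
  unfold hY
  rw [map_tCb]
  simp only [FP.map, dl, ht, pt, rt, st, wt, S1, map_add, map_sub, map_neg, map_mul, map_pow,
    map_ofNat]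

theorem map_gY (u v Y : R) : f (D.gY P u v Y) = (D.map f).gY P (f u) (f v) (f Y) := by
  unfold gY
  rw [map_tQd]
  simp only [FP.map, dl, ht, pt, rt, st, wt, S1, map_add, map_sub, map_neg, map_mul, map_pow,
    map_ofNat]

/-- `δ ^ 3 (S ^ 2 - B)` as a polynomial in `Y` -/
noncomputable def HP (u v : R) : R[X] := (D.map C).hY P (C u) (C v) X

/-- `2 δ ^ 2 Φ` as a polynomial in `Y` -/
noncomputable def GP (u v : R) : R[X] := (D.map C).gY P (C u) (C v) X

/-- `δ ^ 3 (2 s ω - A3)` -/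
noncomputable def dlt (u v : R) : R := (D.HP P u v).coeff 1

/-- `δ ^ 3 (A4 - ω ^ 2)` -/
noncomputable def nu (u v : R) : R := -(D.HP P u v).coeff 0

/-- The form of degree nine in `(Δ, ν)`. -/
noncomputable def FF (u v x z : R) : R :=
  ∑ j ∈ Finset.range 10, (D.GP P u v).coeff j * z ^ j * x ^ (9 - j)

/-- **The equation of the surface on the curve.** -/
noncomputable def FE (u v : R) : R := D.FF P u v (D.dlt P u v) (D.nu P u v)

/-- the map induced on polynomials -/
noncomputable def mp : R[X] →ₐ[ℂ] R'[X] := Polynomial.mapAlgHom f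

theorem mp_apply (q : R[X]) : mp f q = q.map (f : R →+* R') := rfl

theorem map_C_map : (D.map C).map (mp f) = (D.map f).map C := by
  simp only [FP.map, mp_apply, map_C, RingHom.coe_coe]

theorem map_HP (u v : R) : (D.HP P u v).map (f : R →+* R') = (D.map f).HP P (f u) (f v) := by
  unfold HP
  rw [← mp_apply, map_hY, map_C_map, mp_apply, mp_apply, mp_apply, map_C, map_C, map_X]
  rfl

theorem map_GP (u v : R) : (D.GP P u v).map (f : R →+* R') = (D.map f).GP P (f u) (f v) := by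
  unfold GP
  rw [← mp_apply, map_gY, map_C_map, mp_apply, mp_apply, mp_apply, map_C, map_C, map_X]
  rfl

theorem map_dlt (u v : R) : f (D.dlt P u v) = (D.map f).dlt P (f u) (f v) := by
  unfold dlt
  rw [← map_HP, coeff_map]
  rfl

theorem map_nu (u v : R) : f (D.nu P u v) = (D.map f).nu P (f u) (f v) := by
  unfold nu
  rw [← map_HP, coeff_map, map_neg]
  rfl

theorem map_FF (u v x z : R) : f (D.FF P u v x z) = (D.map f).FF P (f u) (f v) (f x) (f z) := by
  unfold FF
  rw [map_sum]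
  refine Finset.sum_congr rfl fun j _ => ?_
  rw [map_mul, map_mul, map_pow, map_pow, ← map_GP, coeff_map]
  rfl

theorem map_FE (u v : R) : f (D.FE P u v) = (D.map f).FE P (f u) (f v) := by
  unfold FE
  rw [map_FF, map_dlt, map_nu]

theorem FF_smul (u v t x z : R) : D.FF P u v (t * x) (t * z) = t ^ 9 * D.FF P u v x z := by
  unfold FF
  rw [Finset.mul_sum]
  refine Finset.sum_congr rfl fun j hj => ?_
  have h1 : j ≤ 9 := Nat.lt_succ_iff.1 (Finset.mem_range.1 hj)
  rw [mul_pow, mul_pow, show t ^ 9 = t ^ j * t ^ (9 - j) by rw [← pow_add, Nat.add_sub_cancel' h1]]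
  ring

theorem HP_smul (t u v : R) : D.HP P (t * u) (t * v) = C (t ^ 6) * D.HP P u v := by
  unfold HP
  rw [C_mul, C_mul, hY_smul, C_pow]

theorem GP_smul (t u v : R) : D.GP P (t * u) (t * v) = C (t ^ 4) * D.GP P u v := by
  unfold GP
  rw [C_mul, C_mul, gY_smul, C_pow]

theorem dlt_smul (t u v : R) : D.dlt P (t * u) (t * v) = t ^ 6 * D.dlt P u v := by
  unfold dlt
  rw [HP_smul, coeff_C_mul]

theorem nu_smul (t u v : R) : D.nu P (t * u) (t * v) = t ^ 6 * D.nu P u v := by
  unfold nu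
  rw [HP_smul, coeff_C_mul]
  ring

theorem FE_smul (t u v : R) : D.FE P (t * u) (t * v) = t ^ 58 * D.FE P u v := by
  unfold FE
  rw [dlt_smul, nu_smul, FF_smul]
  unfold FF
  rw [Finset.mul_sum, Finset.mul_sum]
  refine Finset.sum_congr rfl fun j _ => ?_
  rw [GP_smul, coeff_C_mul]
  ring

/-- **The equation of the surface on the curve**, as a polynomial in `u`. -/
noncomputable def poly : R[X] := (D.map C).FE P X 1

end form

section field

variable {L : Type} [Field L] [Algebra ℂ L] (P : Par) (D : FP L)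

/-- the coordinate `y` of the point with parameter `u` -/
noncomputable def yy (u : L) : L := D.nu P u 1 / D.dlt P u 1

/-- the line through the node: `p` -/
noncomputable def pb (u : L) : L := D.pt u 1 / D.dl u 1

/-- the line through the node: `r` -/
noncomputable def rb (u : L) : L := D.rt u 1 / D.dl u 1

/-- the slope `s` -/
noncomputable def sb (u : L) : L := D.st u 1 / D.dl u 1

/-- `ω` -/
noncomputable def om (u : L) : L := D.wt u 1 / D.dl u 1 - (D.pb u ^ 2 - D.rb u ^ 2)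

/-- the point of the surface on the curve -/
noncomputable def pS (u : L) : Fin 5 → L :=
  toS P D.l (D.al * D.yy P u + D.pb u) (-D.be * D.yy P u + D.rb u) (D.yy P u)
    (D.sb u * D.yy P u + D.om u)

/-- The relations between the parameters. -/
structure Base : Prop where
  node : IsNode P D.l D.al D.be
  hs : D.ss ^ 2 = (ntd P D.l D.al D.be).B2 D.ps D.rs
  ha : D.a = 2 * D.l ^ 2 * (D.ps - (ntd P D.l D.al D.be).pn + (D.rs - (ntd P D.l D.al D.be).rn)) *
    (D.k1 + D.k2) + 8 * D.al * D.be * (D.ps + D.rs) * (D.k1 + D.k2) +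
    4 * (ntd P D.l D.al D.be).kp * D.k1 + 4 * (ntd P D.l D.al D.be).kr * D.k2
  hb : D.b = (D.l ^ 2 + 4 * D.al * D.be) * (D.k1 + D.k2) ^ 2

variable {K : Type} [Field K] [Algebra ℂ K]

/-- **The cycle of the points of the surface on the curve.** -/
noncomputable def VV (x₀ : Fin 5 → K) : (K →ₐ[ℂ] L) →₀ ℤ :=
  ((D.poly P).roots.map fun u => H160.Z2Irr.pt x₀ (D.pS P u)).sum

end field

end FP

end Vale.Agent.P297.Z2
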