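import Vale.Agent.P297.H637.Z2.Jet6
import Vale.Agent.P297.H860.Z2.Dir6
import Vale.Agent.P297.H54.Z2.Ycyc6
import Vale.Agent.P297.H72.Z2.G6e
import Vale.Agent.P297.H581.Z2.NonVan
import Vale.Agent.P297.H10.Z2.Const6
import Vale.Agent.P297.H55.Z2.Deg
import Vale.Agent.P297.H521.Z2.NV5

/-!
The link between the chords over `y` and the lines through the nodes.
-/

set_option linter.unusedSectionVars false
set_option linter.unusedVariables false
set_option linter.style.haveILetI false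

open Polynomial

namespace Vale.Agent.P297.Z2

open Vale.Agent.P297 Vale.Agent.P297.Gen Vale.Agent.P297.H72 Vale.Agent.P297.H637
open Vale.Agent.P297.H160.Z2Irr

section

variable {K N : Type} [Field K] [Algebra ℂ K] [Field N] [Algebra ℂ N] {P : Par} {x₀ : Fin 5 → K}
  {l al be y p0 p1 r0 r1 s0 s1 s2 z z' zs ss : N}

theorem sp_onM (hsg : s2 = -(p1 ^ 2 - r1 ^ 2)) :
    H54.Z2.OnM (H860.Z2.spD P l al be y p0 p1 r0 r1 s0 s1 s2 zs ss) y p0 p1 r0 r1 s0 s1 s2 zs where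
  p := fun u hu => H860.Z2.sp_p hu
  r := fun u hu => H860.Z2.sp_r hu
  s := fun u hu => H860.Z2.sp_S hsg hu

theorem sp_disc
    (hs : ss ^ 2 = (ntd P l al be).B2 (p0 + p1 * zs - al * y) (r0 + r1 * zs + be * y))
    (hdisc : ∀ h c0 c1 c2 : N,
        (∀ z, (ntd P l al be).B2 (p0 - al * y + p1 * h + p1 * z)
          (r0 + be * y + r1 * h + r1 * z) = c0 + c1 * z + c2 * z ^ 2) →
        c1 ^ 2 - 4 * c0 * c2 ≠ 0) :
    (H860.Z2.spD P l al be y p0 p1 r0 r1 s0 s1 s2 zs ss).a ^ 2 ≠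
      4 * (H860.Z2.spD P l al be y p0 p1 r0 r1 s0 s1 s2 zs ss).ss ^ 2 *
        (H860.Z2.spD P l al be y p0 p1 r0 r1 s0 s1 s2 zs ss).b := by
  intro h0
  refine hdisc zs (ss ^ 2) (H860.Z2.spD P l al be y p0 p1 r0 r1 s0 s1 s2 zs ss).a
    (H860.Z2.spD P l al be y p0 p1 r0 r1 s0 s1 s2 zs ss).b (fun t => ?_) (sub_eq_zero.2 h0)
  rw [hs]
  unfold H860.Z2.spD TD.B2 TD.W
  have e1 : (ntd P l al be).al = al := rfl
  have e2 : (ntd P l al be).be = be := rfl
  have e3 : (ntd P l al be).l = l := rfl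
  rw [e1, e2, e3]
  ring

/-- **The link between the chords over `y` and the lines through the nodes.** -/
theorem link6 [IsAlgClosed N] {m : ℤ} (hx : H160.Z2Irr.IsFF P x₀) (h : NonDeg P)
    (h9 : H55Z.Good9 P N) : Link6S P x₀ N m := by
  classical
  intro l y p0 p1 r0 r1 s0 s1 s2 z z' hi hY
  haveI : CharZero N := charZero_of_injective_algebraMap (algebraMap ℂ N).injective
  have hl : Transcendental ℂ l := hi.transcendental 0
  have hy : Transcendental ℂ y := hi.transcendental 1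
  obtain ⟨al, be, hn, hal, hbe, hgen, hp1, h6, hdisc⟩ :=
    H72.Z2.exists_good6 h.nc h.M1 h.Q1 hi hY.line
  have hsq : p1 ^ 2 ≠ r1 ^ 2 := H430.Z2.yline_sq_ne h.Q hy hY.line
  have hk : p1 + r1 ≠ 0 := by
    intro h0
    apply hsq
    linear_combination (p1 - r1) * h0
  have hlam : l ^ 2 + 4 * al * be ≠ 0 := H581.Z2.lam_ne h.P2 hl hn
  obtain ⟨zs, hzs, hB2, hT⟩ := H54.Z2.exists_base (y := y) (p0 := p0) (r0 := r0) hn hk h6 hlam
    {z, z'}
  rw [Finset.mem_insert, Finset.mem_singleton, not_or] at hzs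
  rw [show p0 - al * y + p1 * zs = p0 + p1 * zs - al * y by ring,
    show r0 + be * y + r1 * zs = r0 + r1 * zs + be * y by ring] at hB2 hT
  obtain ⟨ss, hss⟩ := IsAlgClosed.exists_pow_nat_eq
    ((ntd P l al be).B2 (p0 + p1 * zs - al * y) (r0 + r1 * zs + be * y)) (n := 2) two_pos
  have hss0 : ss ≠ 0 := by
    rintro rfl
    apply hB2
    rw [← hss]
    ring
  have hdir' := fun (β : Fin 6 → N) hβ => H860.Z2.exists_wdir h.nc h.M1 h.uv hn hi hss hss0 hY.sgn
    hY.line β hβ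
  have hon := sp_onM (P := P) (l := l) (al := al) (be := be) (y := y) (p0 := p0) (r0 := r0)
    (s0 := s0) (s1 := s1) (zs := zs) (ss := ss) hY.sgn
  have hdc := sp_disc (s0 := s0) (s1 := s1) (s2 := s2) hss hdisc
  have hbase := H860.Z2.spD_base (s0 := s0) (s1 := s1) (s2 := s2) hn hss
  obtain ⟨D, hD⟩ : ∃ D, D = H860.Z2.spD P l al be y p0 p1 r0 r1 s0 s1 s2 zs ss := ⟨_, rfl⟩
  rw [← hD] at hdir' hon hdc hbase
  have el : D.l = l := by rw [hD]; rfl
  have eal : D.al = al := by rw [hD]; rfl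
  have ebe : D.be = be := by rw [hD]; rfl
  have eps : D.ps = p0 + p1 * zs - al * y := by rw [hD]; rfl
  have ers : D.rs = r0 + r1 * zs + be * y := by rw [hD]; rfl
  have ek1 : D.k1 = p1 := by rw [hD]; rfl
  have ek2 : D.k2 = r1 := by rw [hD]; rfl
  have hYg : YGood P D.l y p0 p1 r0 r1 s0 s1 s2 z z' := by
    rw [el]
    exact hY
  have hlD : Transcendental ℂ D.l := by
    rw [el]
    exact hl
  have H := hon.special h.M1 hbase hYg.line
  have hκ : D.dlt P 1 0 ≠ 0 := H54.Z2.dlt_one_zero H (by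
    rw [el, eal, ebe, eps, ers]
    exact hT)
  have hδ : ∀ u, D.dl u 1 = 0 → D.dlt P u 1 ≠ 0 := by
    intro u hu
    refine H581.Z2.dlt_ne hbase.node.sub (by rw [hbase.hb]) (by rw [ek1, ek2]; exact hk)
      (by rw [el, eal, ebe, ek1, ek2]; exact h6) ?_ hu
    intro h0
    apply hdc
    linear_combination h0
  obtain ⟨β, hA, hβ⟩ := H.exists_beta hκ hδ
  obtain ⟨g1, g2, g3⟩ := hon.roots h.M1 hbase hYg hzs.1 hzs.2 hdc
  have hnl : ∀ j, NLine P D.l D.al D.be (D.pb (β j)) (D.rb (β j)) (D.sb (β j)) (D.om (β j)) :=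
    fun j => H.nline (hβ j).2 (hβ j).1
  have hgn : ∀ j, D.pb (β j) ∉ cl0 ({D.l} : Set N) ∨ D.rb (β j) ∉ cl0 ({D.l} : Set N) := by
    intro j
    have h1 := hnl j
    have h2 := hon.p _ (hβ j).2
    have h3 := hon.r _ (hβ j).2
    rw [eal] at h2
    rw [ebe] at h3
    rw [el, eal, ebe] at h1
    rw [el]
    exact hgen _ _ _ _ _ h1 h2 h3
  have hmem : FP.Mem P D y (D.dlt P 1 0) β :=
    { base := hbase
      ny := H.nu_poly
      κ0 := hκ
      dA := hA
      gd := g1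
      dβ := fun j => (hβ j).2
      dg := fun a ha => (g2 a ha).1
      h9 := fun j => (H55Z.cP_deg h.nc hlD (hnl j).node).1
      gl := fun j t ht => by
        unfold FP.Gd
        refine h9 _ _ _ _ _ _ _ _ hlD (hnl j) (hgn j) ?_
        unfold FP.lnp at ht
        rw [eval_tPhi] at ht
        simpa only [eval_mul, eval_add, eval_C, eval_X] using ht
      gm := fun a ha => (g2 a ha).2 }
  obtain ⟨w, R₀, R₁, hw⟩ := hdir' β fun j => (hβ j).2
  obtain ⟨N₁, _, _, _, _, _, V, e, _, he0, he, -, -⟩ :=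
    H279.exists_dir_plc N (fun _ : Fin 0 => (0 : N)) (fun _ => 0)
  haveI : CharZero N₁ := charZero_of_injective_algebraMap (algebraMap ℂ N₁).injective
  obtain ⟨w1, Q₀, Q₁, w2, w3, w4, w5⟩ := hw N₁ V e (fun i => algebraMap N N₁ (w i)) he0 he
    fun i => V.val_const (w i)
  obtain ⟨v, hv⟩ : ∃ v : Fin 8 → N₁, v = fun i => algebraMap N N₁ (wpar D.vec i) +
    e * algebraMap N N₁ (w i) := ⟨_, rfl⟩
  rw [← hv] at w2 w3
  have hval : ∀ i, V.Val (v i) (wpar D.vec i) := by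
    intro i
    have h3 := (V.val_const (wpar D.vec i)).add (he.mul (V.val_const (w i)))
    rw [zero_mul, add_zero] at h3
    rw [hv]
    exact h3
  have htw := tr_wpar h.nc hbase.cb hlD
  have hcp := cpar_wpar h.nc hbase.cb hlD
  have hc : ∀ i, V.Val (cpar P v i) (D.vec i) := by
    intro i
    have h3 := val_cpar h.nc hval htw i
    rw [hcp] at h3
    exact h3
  have hb₁ : (FP.of (cpar P v)).Base P := FP.base_of (cb_cpar h.nc (H55Z.tr_of_val (hval 0) htw))
  obtain ⟨k1, k2, k3⟩ := FP.Mem.spec (R := ![Q₀, Q₁]) (R₀ := ![R₀, R₁]) hx h.M1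
    (FP.of_vec D).symm rfl hmem hc hb₁ he he0 (Fin.forall_fin_two.2 ⟨w4, w5⟩) w2 w3 w1
  have ht₁ : Transcendental ℂ (FP.of (cpar P v)).l := H55Z.tr_of_val (hc 0) hlD
  have hrel : (FP.of (cpar P v)).VV P x₀ ∈ Rel m K N₁ := FP.const6 hx h.nc h.M1 hb₁ ht₁ k2
    fun u hu => ⟨(k3 u hu).1, (k3 u hu).2.1, (k3 u hu).2.2⟩
  have key := SpecC.rel (P := V) k1 hrel
  refine ⟨D.al, D.be, fun j => D.pb (β j), fun j => D.rb (β j), fun j => D.sb (β j),
    fun j => D.om (β j), ?_, ?_, ?_⟩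
  · rw [← el]
    exact hnl
  · rw [← el]
    exact hgn
  · have e1 := g3 x₀
    rw [← el]
    rw [← e1]
    have e2 : ∀ j, ncyc P x₀ D.l D.al D.be (D.pb (β j)) (D.rb (β j)) (D.sb (β j)) (D.om (β j)) =
        ((D.lnp P (β j)).roots.map
          fun y => H160.Z2Irr.pt x₀ (D.qS P (β j) y)).sum := by
      intro j
      unfold ncyc cyc FP.lnp FP.qS
      simp only [eval_add, eval_mul, eval_C, eval_X]
    simp only [e2]
    exact key

end

end Vale.Agent.P297.Z2
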