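import Vale.Agent.P297.H637.Z2.Sec

/-!
The classification of the roots of a form infinitely near to a degenerate member.
-/

set_option linter.unusedSectionVars false
set_option linter.style.haveILetI false

open Polynomial

namespace Vale.Agent.P297.H637

open Vale.Agent.P297 Vale.Agent.P297.H72

variable {N N₁ : Type} [Field N] [Algebra ℂ N] [Field N₁] [Algebra ℂ N₁]
  [Algebra N N₁] [IsScalarTower ℂ N N₁] {P : Plc N N₁}

/-- **The roots of the form**: every root is infinitely near to a root of `G₀`, or lies in a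
cluster. -/
theorem root_class [IsAlgClosed N] [IsAlgClosed N₁] {m D : ℕ} (S : SForm2 m D) {l : N₁}
    (hl : P.Val l 0)
    (hl0 : l ≠ 0) {u : Fin m → N₁} {u₀ : Fin m → N} (hu : ∀ i, P.Val (u i) (u₀ i))
    {g R : Fin 2 → N₁[X]} {g₀ R₀ lam : Fin 2 → N[X]}
    (hg : ∀ i, g i = (g₀ i).map (algebraMap N N₁) + C l * R i) (hR : ∀ i, PVal P (R i) (R₀ i))
    {A₀ : N[X]} (hg₀ : ∀ i, g₀ i = lam i * A₀) (hlam0 : lam 0 = 1) {k : ℕ} {β : Fin k → N} {κ : N}
    (hκ : κ ≠ 0) (hA₀ : A₀ = C κ * ∏ j, (X - C (β j))) {G₀ : N[X]} (hG₀ : G₀ ≠ 0)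
    (hF₀ : S.Φ N[X] (fun i => C (u₀ i)) X g₀ = G₀ * (∏ j, (X - C (β j))) ^ D)
    (hdeg : (S.Φ N₁[X] (fun i => C (u i)) X g).natDegree ≤ G₀.natDegree + D * k)
    {Q : N → N[X]} (hQ0 : ∀ j, Q (β j) ≠ 0) (hQd : ∀ j, (Q (β j)).natDegree = D) {ck : N → N}
    (hck : ∀ j, ck (β j) ≠ 0)
    (hQ : ∀ j (ζ : Fin 2 → N), ζ 0 ≠ 0 →
      S.Φ N u₀ (β j) ζ = ζ 0 ^ D * (ck (β j) * (Q (β j)).eval (ζ 1 / ζ 0)))
    (hdet : ∀ j, (lam 1).eval (β j) * (R₀ 0).eval (β j) - (R₀ 1).eval (β j) ≠ 0) :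
    (S.Φ N₁[X] (fun i => C (u i)) X g).natDegree = G₀.natDegree + D * k ∧
    ∀ r, (S.Φ N₁[X] (fun i => C (u i)) X g).eval r = 0 →
      (∃ a, P.Val r a ∧ (∀ j, β j ≠ a) ∧ G₀.eval a = 0) ∨
      ∃ (j : Fin k) (κ' : N₁) (z : Fin 2 → N₁) (ζ : Fin 2 → N), P.Val r (β j) ∧ κ' ≠ 0 ∧
        (∀ i, (g i).eval r = κ' * z i) ∧ (∀ i, P.Val (z i) (ζ i)) ∧ ζ 0 ≠ 0 ∧
        S.Φ N u₀ (β j) ζ = 0 := by
  classical
  set F := S.Φ N₁[X] (fun i => C (u i)) X g with hFdef
  set F₀ := S.Φ N[X] (fun i => C (u₀ i)) X g₀ with hF₀def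
  set s : Finset N := Finset.univ.image β with hs
  set e : N → ℕ := fun c => (Finset.univ.filter fun j => β j = c).card with he
  have hmem : ∀ c ∈ s, ∃ j, β j = c := by
    intro c hc
    obtain ⟨j, -, hj⟩ := Finset.mem_image.1 hc
    exact ⟨j, hj⟩
  have hepos : ∀ c ∈ s, 0 < e c := by
    intro c hc
    obtain ⟨j, hj⟩ := hmem c hc
    exact Finset.card_pos.2 ⟨j, Finset.mem_filter.2 ⟨Finset.mem_univ _, hj⟩⟩
  have hΨ : (∏ j, (X - C (β j)) : N[X]) = ∏ c ∈ s, (X - C c) ^ e c :=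
    Finset.prod_comp (fun c => (X - C c : N[X])) β
  have hΨ0 : (∏ j, (X - C (β j)) : N[X]) ≠ 0 :=
    Finset.prod_ne_zero_iff.2 fun j _ => X_sub_C_ne_zero _
  have hF₀0 : F₀ ≠ 0 := by
    rw [hF₀]
    exact mul_ne_zero hG₀ (pow_ne_zero _ hΨ0)
  have hgv : ∀ i, PVal P (g i) (g₀ i) := by
    intro i
    rw [hg i]
    have h1 := (PVal.map (P := P) (g₀ i)).add ((PVal.C hl).mul (hR i))
    rwa [C_0, zero_mul, add_zero] at h1
  have hF : PVal P F F₀ := S.pval hu PVal.X hgv
  have hd0 : F₀.natDegree = G₀.natDegree + D * k := by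
    rw [hF₀, natDegree_mul hG₀ (pow_ne_zero _ hΨ0), natDegree_pow]
    congr 2
    rw [natDegree_prod _ _ fun j _ => X_sub_C_ne_zero _]
    simp
  have hd : F.natDegree = F₀.natDegree := by
    apply le_antisymm
    · rw [hd0]
      exact hdeg
    · refine le_natDegree_of_ne_zero ?_
      have h1 := hF F₀.natDegree
      exact h1.ne_zero (leadingCoeff_ne_zero.2 hF₀0)
  have hF0 : F ≠ 0 := by
    intro h0
    apply hF₀0
    have h1 := hF
    rw [h0] at h1
    ext n
    rw [coeff_zero]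
    have h2 := h1 n
    rw [coeff_zero] at h2
    exact h2.unique P.val_zero
  refine ⟨by rw [hd, hd0], fun r hr => ?_⟩
  obtain ⟨a, hra⟩ := (roots_val' hF hF₀0 hd).1 r ((mem_roots hF0).2 hr)
  have ha : F₀.eval a = 0 := by
    have h1 := hF.eval hra
    rw [hr] at h1
    exact h1.unique P.val_zero
  by_cases haj : ∃ j, β j = a
  swap
  · left
    refine ⟨a, hra, fun j hj => haj ⟨j, hj⟩, ?_⟩
    rw [hF₀, eval_mul, eval_pow] at ha
    refine (mul_eq_zero.1 ha).resolve_right (pow_ne_zero _ ?_)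
    rw [eval_prod]
    refine Finset.prod_ne_zero_iff.2 fun j _ => ?_
    rw [eval_sub, eval_X, eval_C]
    exact sub_ne_zero.2 fun h0 => haj ⟨j, h0.symm⟩
  right
  obtain ⟨j, hj⟩ := haj
  have hc : a ∈ s := by
    rw [← hj]
    exact Finset.mem_image_of_mem _ (Finset.mem_univ j)
  -- the cofactor
  obtain ⟨Qc, hAQ, hκ1⟩ : ∃ Qc : N[X], A₀ = (X - C a) ^ e a * Qc ∧ Qc.eval a ≠ 0 := by
    refine ⟨C κ * ∏ b ∈ s.erase a, (X - C b) ^ e b, ?_, ?_⟩
    · rw [hA₀, hΨ, ← Finset.mul_prod_erase s _ hc]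
      ring
    · rw [eval_mul, eval_C, eval_prod]
      refine mul_ne_zero hκ (Finset.prod_ne_zero_iff.2 fun b hb => ?_)
      rw [eval_pow, eval_sub, eval_X, eval_C]
      refine pow_ne_zero _ (sub_ne_zero.2 ?_)
      rintro rfl
      exact (Finset.notMem_erase a s) hb
  obtain ⟨ε, h1, h2, h3⟩ := exists_root_pow hl hl0 (hepos a hc)
  have hjet : ∀ i, ∃ B : N₁[X],
      (g i).comp (C (algebraMap N N₁ a) + C ε * X) = C l * B ∧
      PVal P B (C ((lam i * Qc).eval a) * X ^ e a + C ((R₀ i).eval a)) := fun i =>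
    jet_comp (c := a) (Q := lam i * Qc) (hg i) (hR i) (by rw [hg₀ i, hAQ]; ring) h1 h3
  choose B hB using hjet
  set Rc : N[X] := S.Φ N[X] (fun i => C (u₀ i)) (C a)
    (fun i => C ((lam i * Qc).eval a) * X + C ((R₀ i).eval a)) with hRc
  have hlamc : (lam 0 * Qc).eval a = Qc.eval a := by rw [hlam0, one_mul]
  have hRe : ∀ w, Rc.eval w = S.Φ N u₀ a
      (fun i => (lam i * Qc).eval a * w + (R₀ i).eval a) := by
    intro w
    change (S.Φ N[X] (fun i => C (u₀ i)) (C a) _).eval w = _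
    rw [S.eval_eq, eval_C]
    congr 1
    funext i
    rw [eval_add, eval_mul, eval_C, eval_X, eval_C]
  obtain ⟨hRc0, -, -, hne⟩ := roots_moebius_full (Q := C (ck a) * Q a) (R := Rc) (d := D)
      (α := (lam 1 * Qc).eval a) (β := (R₀ 1).eval a) (γ := Qc.eval a)
      (δ := (R₀ 0).eval a) (mul_ne_zero (C_ne_zero.2 (hj ▸ hck j)) (hj ▸ hQ0 j))
      (by rw [natDegree_C_mul (hj ▸ hck j)]; exact hj ▸ hQd j)
      (by
        rw [eval_mul]
        intro h0
        apply mul_ne_zero hκ1 (hj ▸ hdet j)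
        linear_combination h0)
      (by
        intro w hw
        have h7 := hQ j (fun i => (lam i * Qc).eval a * w + (R₀ i).eval a)
          (by rw [hlamc]; exact hw)
        rw [hj] at h7
        rw [hRe, h7, hlamc, eval_C_mul])
  set t := scl (algebraMap N N₁ a) ε r with ht
  have hr' : algebraMap N N₁ a + ε * t = r := scl_eq h2 r
  by_cases hfin : ∃ w, P.Val t w
  · obtain ⟨w, hw⟩ := hfin
    have hg1 : ∀ i, (g i).eval r = l * (B i).eval t := by
      intro i
      have h6 := congrArg (eval t) (hB i).1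
      rw [eval_comp, eval_add, eval_C, eval_mul, eval_C, eval_X, hr', eval_mul, eval_C] at h6
      exact h6
    have hval : ∀ i, P.Val ((B i).eval t) ((lam i * Qc).eval a * w ^ e a + (R₀ i).eval a) := by
      intro i
      have h6 := (hB i).2.eval hw
      rw [eval_add, eval_mul, eval_C, eval_pow, eval_X, eval_C] at h6
      exact h6
    have hzero : S.Φ N u₀ a (fun i => (lam i * Qc).eval a * w ^ e a + (R₀ i).eval a) = 0 := by
      have h4 : F.eval r = S.Φ N₁ u r (fun i => (g i).eval r) := by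
        rw [hFdef, S.eval_eq, eval_X]
      have h5 : (fun i => (g i).eval r) = fun i => l * (B i).eval t := funext hg1
      rw [hr, h5, S.hom] at h4
      have h6 := (mul_eq_zero.1 h4.symm).resolve_left (pow_ne_zero _ hl0)
      have h7 := S.val (P := P) hu hra hval
      rw [h6] at h7
      exact h7.unique P.val_zero
    refine ⟨j, l, fun i => (B i).eval t, _, by rw [hj]; exact hra, hl0, hg1, hval, ?_, by
      rw [hj]; exact hzero⟩
    have h8 : Rc.eval (w ^ e a) = 0 := by rw [hRe]; exact hzero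
    have h9 := hne _ ((mem_roots hRc0).2 h8)
    rw [hlamc]
    exact h9
  · have hsi : P.Val t⁻¹ 0 := by
      rcases P.val_or t with h4 | h4
      · exact absurd h4 hfin
      · exact h4
    have hs0 : t ≠ 0 := by
      intro h0
      exact hfin ⟨0, by rw [h0]; exact P.val_zero⟩
    have hgr : ∀ i, (g i).eval r = (l * t ^ e a) * (((lam i * Qc).map (algebraMap N N₁)).eval r +
        t⁻¹ ^ e a * (R i).eval r) := by
      intro i
      have h4 : r - algebraMap N N₁ a = ε * t := by rw [← hr']; ring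
      rw [hg i, hg₀ i, hAQ, eval_add, eval_mul, eval_C, Polynomial.map_mul,
        Polynomial.map_mul, Polynomial.map_mul, Polynomial.map_pow, Polynomial.map_sub, map_X,
        map_C, eval_mul, eval_mul, eval_mul, eval_pow, eval_sub, eval_X, eval_C, h4, mul_pow, h1]
      have h5 : t ^ e a * t⁻¹ ^ e a = 1 := by rw [← mul_pow, mul_inv_cancel₀ hs0, one_pow]
      linear_combination -(l * (R i).eval r) * h5
    have hval : ∀ i, P.Val (((lam i * Qc).map (algebraMap N N₁)).eval r +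
        t⁻¹ ^ e a * (R i).eval r) ((lam i * Qc).eval a) := by
      intro i
      have h4 := ((PVal.map (P := P) (lam i * Qc)).eval hra).add
        ((hsi.pow (e a)).mul ((hR i).eval hra))
      rwa [zero_pow (hepos a hc).ne', zero_mul, add_zero] at h4
    have hκ' : l * t ^ e a ≠ 0 := mul_ne_zero hl0 (pow_ne_zero _ hs0)
    have hzero : S.Φ N u₀ a (fun i => (lam i * Qc).eval a) = 0 := by
      have h4 : F.eval r = S.Φ N₁ u r (fun i => (g i).eval r) := by
        rw [hFdef, S.eval_eq, eval_X]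
      have h5 : (fun i => (g i).eval r) = fun i => (l * t ^ e a) *
          (((lam i * Qc).map (algebraMap N N₁)).eval r + t⁻¹ ^ e a * (R i).eval r) :=
        funext hgr
      rw [hr, h5, S.hom] at h4
      have h6 := (mul_eq_zero.1 h4.symm).resolve_left (pow_ne_zero _ hκ')
      have h7 := S.val (P := P) hu hra hval
      rw [h6] at h7
      exact h7.unique P.val_zero
    exact ⟨j, l * t ^ e a, _, _, by rw [hj]; exact hra, hκ', hgr, hval, by rw [hlamc]; exact hκ1,
      by rw [hj]; exact hzero⟩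

end Vale.Agent.P297.H637
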