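import Vale.Agent.P297.H637.Z2.Fam6
import Vale.Agent.P297.H55.Z2.Deg

/-!
The family of the two-sections: degrees, and the points over the roots.
-/

set_option linter.unusedSectionVars false
set_option linter.unusedVariables false

open Polynomial

namespace Vale.Agent.P297.Z2

open Vale.Agent.P297 Vale.Agent.P297.Gen Vale.Agent.P297.H72 Vale.Agent.P297.H637
open Vale.Agent.P297.H160.Z2Irr

namespace FP

section hom

variable {L : Type} [Field L] [Infinite L]

theorem eq_of_eval_ne {f g : L[X]} (h : ∀ t ≠ 0, f.eval t = g.eval t) : f = g := by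
  have h1 : f * X = g * X := Polynomial.funext fun t => by
    rw [eval_mul, eval_mul, eval_X]
    by_cases ht : t = 0
    · rw [ht, mul_zero, mul_zero]
    · rw [h t ht]
  exact mul_right_cancel₀ X_ne_zero h1

theorem mul_pow_reverse {f g : L[X]} {n : ℕ} (h : ∀ t ≠ 0, f.eval t = t ^ n * g.eval t⁻¹) :
    f * X ^ g.natDegree = X ^ n * g.reverse := by
  refine eq_of_eval_ne fun t ht => ?_
  letI : Invertible t⁻¹ := invertibleOfNonzero (inv_ne_zero ht)
  have h1 := eval₂_reverse_mul_pow (RingHom.id L) t⁻¹ g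
  have h2 : ⅟(t⁻¹) = t := by rw [invOf_eq_inv, inv_inv]
  rw [h2] at h1
  change eval t g.reverse * t⁻¹ ^ g.natDegree = eval t⁻¹ g at h1
  rw [eval_mul, eval_mul, eval_pow, eval_pow, eval_X, h t ht, ← h1, mul_assoc, mul_assoc,
    ← mul_pow, inv_mul_cancel₀ ht, one_pow, mul_one]

theorem natDegree_le_of_hom {f g : L[X]} {n : ℕ} (h : ∀ t ≠ 0, f.eval t = t ^ n * g.eval t⁻¹) :
    f.natDegree ≤ n := by
  by_cases hf : f = 0
  · rw [hf, natDegree_zero]
    exact Nat.zero_le _
  have h1 := mul_pow_reverse h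
  have h2 : f.natDegree + g.natDegree = (X ^ n * g.reverse).natDegree := by
    rw [← h1, natDegree_mul hf (pow_ne_zero _ X_ne_zero), natDegree_X_pow]
  have h3 : (X ^ n * g.reverse).natDegree ≤ n + g.natDegree := by
    refine (natDegree_mul_le).trans ?_
    rw [natDegree_X_pow]
    exact Nat.add_le_add_left g.reverse_natDegree_le n
  omega

theorem coeff_of_hom {f g : L[X]} {n : ℕ} (h : ∀ t ≠ 0, f.eval t = t ^ n * g.eval t⁻¹) :
    f.coeff n = g.eval 0 := by
  have h1 := mul_pow_reverse h
  have h2 := congrArg (fun q => q.coeff (n + g.natDegree)) h1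
  simp only [coeff_mul_X_pow] at h2
  rw [h2, add_comm n, coeff_X_pow_mul, coeff_reverse, revAt_le (le_refl _), Nat.sub_self,
    coeff_zero_eq_eval_zero]

end hom

section eval

variable {L : Type} [Field L] [Algebra ℂ L] (P : Par) (D : FP L)

/-- the evaluation -/
noncomputable def ev (u : L) : L[X] →ₐ[ℂ] L := (aeval u).restrictScalars ℂ

theorem ev_apply (u : L) (q : L[X]) : ev u q = q.eval u := by
  unfold ev
  rw [AlgHom.restrictScalars_apply]
  exact congrFun (coe_aeval_eq_eval u) q

theorem map_C_ev (u : L) : (D.map C).map (ev u) = D := by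
  simp only [FP.map, ev_apply, eval_C]

theorem eval_dlt (u : L) (U V : L[X]) :
    ((D.map C).dlt P U V).eval u = D.dlt P (U.eval u) (V.eval u) := by
  rw [← ev_apply, map_dlt, map_C_ev, ev_apply, ev_apply]

theorem eval_nu (u : L) (U V : L[X]) :
    ((D.map C).nu P U V).eval u = D.nu P (U.eval u) (V.eval u) := by
  rw [← ev_apply, map_nu, map_C_ev, ev_apply, ev_apply]

theorem eval_FE (u : L) (U V : L[X]) :
    ((D.map C).FE P U V).eval u = D.FE P (U.eval u) (V.eval u) := by
  rw [← ev_apply, map_FE, map_C_ev, ev_apply, ev_apply]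

theorem eval_gY (u : L) (U V Y : L[X]) :
    ((D.map C).gY P U V Y).eval u = D.gY P (U.eval u) (V.eval u) (Y.eval u) := by
  rw [← ev_apply, map_gY, map_C_ev, ev_apply, ev_apply, ev_apply]

theorem eval_coeff_GP (u : L) (U V : L[X]) (j : ℕ) :
    (((D.map C).GP P U V).coeff j).eval u = (D.GP P (U.eval u) (V.eval u)).coeff j := by
  have h := congrArg (fun q => q.coeff j) ((D.map C).map_GP P (ev u) U V)
  simp only [coeff_map, RingHom.coe_coe, map_C_ev] at h
  rw [ev_apply, ev_apply, ev_apply] at h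
  exact h

theorem eval_coeff_HP (u : L) (U V : L[X]) (j : ℕ) :
    (((D.map C).HP P U V).coeff j).eval u = (D.HP P (U.eval u) (V.eval u)).coeff j := by
  have h := congrArg (fun q => q.coeff j) ((D.map C).map_HP P (ev u) U V)
  simp only [coeff_map, RingHom.coe_coe, map_C_ev] at h
  rw [ev_apply, ev_apply, ev_apply] at h
  exact h

theorem poly_eval (u : L) : (D.poly P).eval u = D.FE P u 1 := by
  unfold poly
  rw [eval_FE, eval_X, eval_one]

theorem infL : Infinite L := by
  haveI : CharZero L := charZero_of_injective_algebraMap (algebraMap ℂ L).injective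
  infer_instance

theorem poly_hom (t : L) (ht : t ≠ 0) : (D.poly P).eval t =
    t ^ 58 * ((D.map C).FE P 1 X).eval t⁻¹ := by
  rw [poly_eval, eval_FE, eval_one, eval_X, ← FE_smul, mul_one, mul_inv_cancel₀ ht]

theorem natDegree_poly : (D.poly P).natDegree ≤ 58 := by
  haveI : Infinite L := infL
  exact natDegree_le_of_hom (D.poly_hom P)

theorem coeff_poly : (D.poly P).coeff 58 = D.FE P 1 0 := by
  haveI : Infinite L := infL
  rw [coeff_of_hom (D.poly_hom P), eval_FE, eval_one, eval_X]

/-- `Δ` as a polynomial -/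
noncomputable def dpoly : L[X] := (D.map C).dlt P X 1

/-- `ν` as a polynomial -/
noncomputable def npoly : L[X] := (D.map C).nu P X 1

theorem dpoly_eval (u : L) : (D.dpoly P).eval u = D.dlt P u 1 := by
  unfold dpoly
  rw [eval_dlt, eval_X, eval_one]

theorem npoly_eval (u : L) : (D.npoly P).eval u = D.nu P u 1 := by
  unfold npoly
  rw [eval_nu, eval_X, eval_one]

theorem dpoly_hom (t : L) (ht : t ≠ 0) : (D.dpoly P).eval t =
    t ^ 6 * ((D.map C).dlt P 1 X).eval t⁻¹ := by
  rw [dpoly_eval, eval_dlt, eval_one, eval_X, ← dlt_smul, mul_one, mul_inv_cancel₀ ht]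

theorem natDegree_dpoly : (D.dpoly P).natDegree ≤ 6 := by
  haveI : Infinite L := infL
  exact natDegree_le_of_hom (D.dpoly_hom P)

theorem coeff_dpoly : (D.dpoly P).coeff 6 = D.dlt P 1 0 := by
  haveI : Infinite L := infL
  rw [coeff_of_hom (D.dpoly_hom P), eval_dlt, eval_one, eval_X]

/-- `2 δ ^ 2 Φ` at `y0` as a polynomial -/
noncomputable def gpoly (y0 : L) : L[X] := (D.map C).gY P X 1 (C y0)

theorem gpoly_eval (y0 u : L) : (D.gpoly P y0).eval u = D.gY P u 1 y0 := by
  unfold gpoly
  rw [eval_gY, eval_X, eval_one, eval_C]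

theorem gpoly_hom (y0 t : L) (ht : t ≠ 0) : (D.gpoly P y0).eval t =
    t ^ 4 * ((D.map C).gY P 1 X (C y0)).eval t⁻¹ := by
  rw [gpoly_eval, eval_gY, eval_one, eval_X, eval_C, ← gY_smul, mul_one, mul_inv_cancel₀ ht]

theorem natDegree_gpoly (y0 : L) : (D.gpoly P y0).natDegree ≤ 4 := by
  haveI : Infinite L := infL
  exact natDegree_le_of_hom (D.gpoly_hom P y0)

theorem coeff_gpoly (y0 : L) : (D.gpoly P y0).coeff 4 = D.gY P 1 0 y0 := by
  haveI : Infinite L := infL
  rw [coeff_of_hom (D.gpoly_hom P y0), eval_gY, eval_one, eval_X, eval_C]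

end eval

end FP

end Vale.Agent.P297.Z2
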