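import Vale.Agent.P297.H637.Z2.Fam6A

/-!
The family of the two-sections: the equations on the line through the node.
-/

set_option linter.unusedSectionVars false
set_option linter.unusedVariables false

open Polynomial

namespace Vale.Agent.P297.Z2

open Vale.Agent.P297 Vale.Agent.P297.Gen Vale.Agent.P297.H72 Vale.Agent.P297.H637
open Vale.Agent.P297.H160.Z2Irr

namespace FP

section ringmap

variable {R R' : Type} [CommRing R] [CommRing R'] (D : FP R) (f : R →+* R')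

theorem map_dl (u v : R) : (D.map f).dl (f u) (f v) = f (D.dl u v) := by
  simp only [FP.map, dl, map_sub, map_mul, map_pow]

theorem map_ht (u v : R) : (D.map f).ht (f u) (f v) = f (D.ht u v) := by
  simp only [FP.map, ht, map_sub, map_mul, map_ofNat]

theorem map_pt' (u v : R) : (D.map f).pt (f u) (f v) = f (D.pt u v) := by
  unfold pt
  rw [map_dl, map_ht, map_add, map_mul, map_mul]
  rfl

theorem map_rt (u v : R) : (D.map f).rt (f u) (f v) = f (D.rt u v) := by
  unfold rt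
  rw [map_dl, map_ht, map_add, map_mul, map_mul]
  rfl

theorem map_st (u v : R) : (D.map f).st (f u) (f v) = f (D.st u v) := by
  simp only [FP.map, st, map_sub, map_neg, map_add, map_mul, map_pow]

theorem map_wt (u v : R) : (D.map f).wt (f u) (f v) = f (D.wt u v) := by
  unfold wt
  rw [map_dl, map_ht, map_st, map_add, map_add, map_mul, map_mul, map_mul]
  rfl

end ringmap

section field

variable {L : Type} [Field L] [Algebra ℂ L] {P : Par} {D : FP L} {u : L}

theorem pt_eq (h : D.dl u 1 ≠ 0) : D.pt u 1 = D.dl u 1 * D.pb u := by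
  unfold pb
  field_simp

theorem rt_eq (h : D.dl u 1 ≠ 0) : D.rt u 1 = D.dl u 1 * D.rb u := by
  unfold rb
  field_simp

theorem st_eq (h : D.dl u 1 ≠ 0) : D.st u 1 = D.dl u 1 * D.sb u := by
  unfold sb
  field_simp

theorem wt_eq (h : D.dl u 1 ≠ 0) : D.wt u 1 = D.dl u 1 * (D.om u + (D.pb u ^ 2 - D.rb u ^ 2)) := by
  unfold om
  field_simp
  ring

theorem sq_line (Y : L[X]) : -((C D.al * Y + C (D.pb u)) ^ 2 - (C (-D.be) * Y + C (D.rb u)) ^ 2) +
    (C (D.om u + (D.pb u ^ 2 - D.rb u ^ 2)) + C (D.sb u) * Y +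
      2 * (C D.al * C (D.pb u) + C D.be * C (D.rb u)) * Y + (C D.al ^ 2 - C D.be ^ 2) * Y ^ 2) =
    C (D.sb u) * Y + C (D.om u) := by
  simp only [C_add, C_sub, C_neg, C_pow]
  ring

theorem args (h : D.dl u 1 ≠ 0) :
    (D.map C).dl (C u) (C 1) = C (D.dl u 1) * 1 ∧
    (D.map C).pt (C u) (C 1) + (D.map C).al * (D.map C).dl (C u) (C 1) * X =
      C (D.dl u 1) * (C D.al * X + C (D.pb u)) ∧
    (D.map C).rt (C u) (C 1) - (D.map C).be * (D.map C).dl (C u) (C 1) * X =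
      C (D.dl u 1) * (C (-D.be) * X + C (D.rb u)) ∧
    (D.map C).S1 (C u) (C 1) X = C (D.dl u 1) *
      (C (D.om u + (D.pb u ^ 2 - D.rb u ^ 2)) + C (D.sb u) * X +
      2 * (C D.al * C (D.pb u) + C D.be * C (D.rb u)) * X +
      (C D.al ^ 2 - C D.be ^ 2) * (X : L[X]) ^ 2) := by
  have e1 : (D.map C).al = C D.al := rfl
  have e2 : (D.map C).be = C D.be := rfl
  refine ⟨?_, ?_, ?_, ?_⟩
  · rw [map_dl, mul_one]
  · rw [map_dl, map_pt', pt_eq h, e1, C_mul]
    ring
  · rw [map_dl, map_rt, rt_eq h, e2, C_mul, C_neg]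
    ring
  · unfold S1
    rw [map_dl, map_pt', map_rt, map_st, map_wt, pt_eq h, rt_eq h, st_eq h, wt_eq h, e1, e2,
      C_mul, C_mul, C_mul, C_mul]
    ring

/-- **The cubic on the line.** -/
theorem HP_eq (h : D.dl u 1 ≠ 0) : D.HP P u 1 = C (D.dl u 1 ^ 3) *
    ((C (D.sb u) * X + C (D.om u)) ^ 2 -
      tB P (C D.l) (C D.al * X + C (D.pb u)) (C (-D.be) * X + C (D.rb u)) X) := by
  obtain ⟨h1, h2, h3, h4⟩ := args (D := D) h
  unfold HP hY
  rw [h2, h3, h4, h1, tCb_smul, tCb_eq, sq_line, C_pow]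
  rfl

/-- **The quadratic member on the line.** -/
theorem GP_eq (h : D.dl u 1 ≠ 0) : D.GP P u 1 = C (D.dl u 1 ^ 2) *
    (2 * tPhi P (C D.l) (C D.al * X + C (D.pb u)) (C (-D.be) * X + C (D.rb u)) X
        (C (D.sb u) * X + C (D.om u)) +
      (dat P (X : L[X])).g * fU P X * fV P X * ((C (D.sb u) * X + C (D.om u)) ^ 2 -
      tB P (C D.l) (C D.al * X + C (D.pb u)) (C (-D.be) * X + C (D.rb u)) X)) := by
  obtain ⟨h1, h2, h3, h4⟩ := args (D := D) h
  unfold GP gY
  rw [h2, h3, h4, h1, tQd_smul, tQd_eq, sq_line, C_pow]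
  rfl

theorem charZ : CharZero L := charZero_of_injective_algebraMap (algebraMap ℂ L).injective

/-- `A2` on the plane. -/
theorem Base.B2_eq (hb : D.Base P) (h : D.dl u 1 ≠ 0) :
    (ntd P D.l D.al D.be).B2 (D.pb u) (D.rb u) = D.sb u ^ 2 := by
  have h1 := D.st_sq u 1
  have h2 : D.pb u = D.ps + D.k1 * (D.ht u 1 / D.dl u 1) := by
    unfold pb pt
    field_simp
  have h3 : D.rb u = D.rs + D.k2 * (D.ht u 1 / D.dl u 1) := by
    unfold rb rt
    field_simp
  have h4 : D.sb u ^ 2 = D.ss ^ 2 + D.a * (D.ht u 1 / D.dl u 1) +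
      D.b * (D.ht u 1 / D.dl u 1) ^ 2 := by
    unfold sb
    rw [div_pow, h1]
    field_simp
  have e1 : (ntd P D.l D.al D.be).al = D.al := rfl
  have e2 : (ntd P D.l D.al D.be).be = D.be := rfl
  have e3 : (ntd P D.l D.al D.be).l = D.l := rfl
  rw [h4, h2, h3, hb.hs, hb.ha, hb.hb]
  unfold TD.B2 TD.W
  rw [e1, e2, e3]
  ring

/-- `S ^ 2 - B` is linear in `y` on the line. -/
theorem Base.line (hM : P.M1 = 0) (hb : D.Base P) (h : D.dl u 1 ≠ 0) :
    ∃ α β : L, (C (D.sb u) * X + C (D.om u)) ^ 2 -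
      tB P (C D.l) (C D.al * X + C (D.pb u)) (C (-D.be) * X + C (D.rb u)) X = C α * X + C β := by
  haveI : CharZero L := charZ
  have ha := hb.node.al0
  have hbe := hb.node.be0
  have hab : D.al * D.be ≠ 0 := mul_ne_zero ha hbe
  refine ⟨2 * D.sb u * D.om u - (ntd P D.l D.al D.be).b1 (D.pb u) (D.rb u) / (D.al * D.be),
    D.om u ^ 2 - (ntd P D.l D.al D.be).b0 (D.pb u) (D.rb u) / (D.al * D.be) ^ 2, ?_⟩
  refine Polynomial.funext fun z => ?_
  have h1 := hb.node.tB_line hM (D.pb u) (D.rb u) z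
  rw [hb.B2_eq h] at h1
  rw [eval_sub, eval_tB]
  simp only [eval_add, eval_mul, eval_C, eval_X, eval_pow]
  have h2 : tB P D.l (D.al * z + D.pb u) (-D.be * z + D.rb u) z = D.sb u ^ 2 * z ^ 2 +
      (ntd P D.l D.al D.be).b1 (D.pb u) (D.rb u) / (D.al * D.be) * z +
      (ntd P D.l D.al D.be).b0 (D.pb u) (D.rb u) / (D.al * D.be) ^ 2 := by
    apply mul_left_cancel₀ (pow_ne_zero 2 hab)
    rw [h1]
    field_simp
  rw [h2]
  ring

theorem Base.HP_lin (hM : P.M1 = 0) (hb : D.Base P) (h : D.dl u 1 ≠ 0) :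
    D.HP P u 1 = C (D.dlt P u 1) * X - C (D.nu P u 1) := by
  obtain ⟨α, β, h1⟩ := hb.line hM h
  have h2 : D.HP P u 1 = C (D.dl u 1 ^ 3 * α) * X + C (D.dl u 1 ^ 3 * β) := by
    rw [HP_eq h, h1, C_mul, C_mul]
    ring
  have k : ∀ a b : L, (C a * X + C b).coeff 1 = a ∧ (C a * X + C b).coeff 0 = b := by
    intro a b
    constructor <;> simp
  have h3 : D.dlt P u 1 = D.dl u 1 ^ 3 * α := by
    unfold dlt
    rw [h2]
    exact (k _ _).1
  have h4 : D.nu P u 1 = -(D.dl u 1 ^ 3 * β) := by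
    unfold nu
    rw [h2, (k _ _).2]
  rw [h2, h3, h4, C_neg]
  ring

theorem natDegree_alg (z : ℂ) : (algebraMap ℂ L[X] z).natDegree = 0 := by
  change (C (algebraMap ℂ L z)).natDegree = 0
  exact natDegree_C _

theorem natDegree_lin (z : ℂ) : (X + algebraMap ℂ L[X] z).natDegree ≤ 1 :=
  (natDegree_X_add_C (algebraMap ℂ L z)).le

theorem natDegree_gUV : ((dat P (X : L[X])).g * fU P X * fV P X).natDegree ≤ 6 := by
  have hU : (fU P (X : L[X])).natDegree ≤ 1 := natDegree_lin _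
  have hV : (fV P (X : L[X])).natDegree ≤ 1 := natDegree_lin _
  have he : (fe P (X : L[X])).natDegree ≤ 2 := by
    have h1 : fe P (X : L[X]) = C (algebraMap ℂ L P.n) - X ^ 2 + C (algebraMap ℂ L P.P1) * X := rfl
    rw [h1]
    compute_degree
  have h1 : (fU P (X : L[X]) * fV P X * fe P X).natDegree ≤ 4 :=
    natDegree_mul_le_of_le (natDegree_mul_le_of_le hU hV) he
  have h2 : (algebraMap ℂ L[X] P.P0 * fV P X ^ 3).natDegree ≤ 4 := by
    refine (natDegree_mul_le_of_le (natDegree_alg _).le (natDegree_pow_le_of_le 3 hV)).trans ?_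
    norm_num
  have h3 : (algebraMap ℂ L[X] P.P2 * fU P X ^ 3).natDegree ≤ 4 := by
    refine (natDegree_mul_le_of_le (natDegree_alg _).le (natDegree_pow_le_of_le 3 hU)).trans ?_
    norm_num
  have h4 : (dat P (X : L[X])).g.natDegree ≤ 4 :=
    natDegree_add_le_of_degree_le (natDegree_add_le_of_degree_le h1 h2) h3
  exact natDegree_mul_le_of_le (natDegree_mul_le_of_le h4 hU) hV

theorem Base.natDegree_GP (hM : P.M1 = 0) (hb : D.Base P) (h : D.dl u 1 ≠ 0) :
    (D.GP P u 1).natDegree ≤ 9 := by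
  obtain ⟨α, β, h1⟩ := hb.line hM h
  rw [GP_eq h, h1]
  have h2 : (2 * tPhi P (C D.l) (C D.al * X + C (D.pb u)) (C (-D.be) * X + C (D.rb u)) X
        (C (D.sb u) * X + C (D.om u)) : L[X]).natDegree ≤ 9 := by
    have h3 := (H55Z.deg9 P L D.l D.al D.be (D.pb u) (D.rb u) (D.sb u) (D.om u) hb.node).1
    have h4 : (2 : L[X]) = C 2 := (map_ofNat C 2).symm
    rw [h4]
    exact (natDegree_C_mul_le _ _).trans h3
  have h5 : ((dat P (X : L[X])).g * fU P X * fV P X * (C α * X + C β)).natDegree ≤ 9 :=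
    (natDegree_mul_le_of_le natDegree_gUV (natDegree_linear_le)).trans (by norm_num)
  exact (natDegree_C_mul_le _ _).trans (natDegree_add_le_of_degree_le h2 h5)

/-- **The points over the roots lie on the surface.** -/
theorem Base.on (hM : P.M1 = 0) (hb : D.Base P) (h : D.dl u 1 ≠ 0) (hd : D.dlt P u 1 ≠ 0)
    (hu : D.FE P u 1 = 0) :
    (D.sb u * D.yy P u + D.om u) ^ 2 =
      tB P D.l (D.al * D.yy P u + D.pb u) (-D.be * D.yy P u + D.rb u) (D.yy P u) ∧
    tPhi P D.l (D.al * D.yy P u + D.pb u) (-D.be * D.yy P u + D.rb u) (D.yy P u)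
      (D.sb u * D.yy P u + D.om u) = 0 := by
  haveI : CharZero L := charZ
  have h3 : D.dl u 1 ^ 3 ≠ 0 := pow_ne_zero 3 h
  have h1 : (D.HP P u 1).eval (D.yy P u) = 0 := by
    rw [hb.HP_lin hM h]
    simp only [eval_sub, eval_mul, eval_C, eval_X]
    unfold yy
    field_simp
    ring
  have h2 : (D.sb u * D.yy P u + D.om u) ^ 2 -
      tB P D.l (D.al * D.yy P u + D.pb u) (-D.be * D.yy P u + D.rb u) (D.yy P u) = 0 := by
    rw [HP_eq h, eval_mul, eval_C, eval_sub, eval_tB] at h1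
    simp only [eval_add, eval_mul, eval_C, eval_X, eval_pow] at h1
    exact (mul_eq_zero.1 h1).resolve_left h3
  have h4 : (D.GP P u 1).eval (D.yy P u) = 0 := by
    have h5 : D.FE P u 1 = D.dlt P u 1 ^ 9 * (D.GP P u 1).eval (D.yy P u) := by
      rw [eval_eq_sum_range' (Nat.lt_succ_of_le (hb.natDegree_GP hM h))]
      unfold FE FF
      rw [Finset.mul_sum]
      refine Finset.sum_congr rfl fun j hj => ?_
      have h6 : j ≤ 9 := Nat.lt_succ_iff.1 (Finset.mem_range.1 hj)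
      have h7 : D.nu P u 1 = D.dlt P u 1 * D.yy P u := by
        unfold yy
        field_simp
      rw [h7, mul_pow, show D.dlt P u 1 ^ 9 = D.dlt P u 1 ^ j * D.dlt P u 1 ^ (9 - j) by
        rw [← pow_add, Nat.add_sub_cancel' h6]]
      ring
    rw [h5] at hu
    exact (mul_eq_zero.1 hu).resolve_left (pow_ne_zero 9 hd)
  refine ⟨sub_eq_zero.1 h2, ?_⟩
  rw [GP_eq h, eval_mul, eval_C, eval_add, eval_mul, eval_mul, eval_sub, eval_tB, eval_tPhi] at h4
  simp only [eval_add, eval_mul, eval_C, eval_X, eval_pow, eval_ofNat] at h4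
  rw [h2, mul_zero, add_zero] at h4
  exact (mul_eq_zero.1 ((mul_eq_zero.1 h4).resolve_left (pow_ne_zero 2 h))).resolve_left
    two_ne_zero

/-- The form on a component. -/
theorem Base.FF_eq (hM : P.M1 = 0) (hb : D.Base P) (h : D.dl u 1 ≠ 0) {x z : L} (hx : x ≠ 0) :
    D.FF P u 1 x z = x ^ 9 * (D.GP P u 1).eval (z / x) := by
  rw [eval_eq_sum_range' (Nat.lt_succ_of_le (hb.natDegree_GP hM h))]
  unfold FF
  rw [Finset.mul_sum]
  refine Finset.sum_congr rfl fun j hj => ?_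
  have h6 : j ≤ 9 := Nat.lt_succ_iff.1 (Finset.mem_range.1 hj)
  rw [div_pow, show x ^ 9 = x ^ j * x ^ (9 - j) by rw [← pow_add, Nat.add_sub_cancel' h6]]
  field_simp

/-- **The components over the zeros of `Δ`.** -/
theorem Base.nline (hM : P.M1 = 0) (hb : D.Base P) (h : D.dl u 1 ≠ 0) (hd : D.dlt P u 1 = 0)
    (hn : D.nu P u 1 = 0) : NLine P D.l D.al D.be (D.pb u) (D.rb u) (D.sb u) (D.om u) := by
  refine ⟨hb.node, ?_⟩
  have h1 := hb.HP_lin hM h
  rw [hd, hn, C_0, zero_mul, sub_zero, HP_eq h] at h1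
  have h2 : (C (D.dl u 1 ^ 3) : L[X]) ≠ 0 := C_ne_zero.2 (pow_ne_zero 3 h)
  exact (sub_eq_zero.1 ((mul_eq_zero.1 h1).resolve_left h2)).symm

/-- The equation of the surface on a component. -/
theorem Base.GP_nline (hM : P.M1 = 0) (hb : D.Base P) (h : D.dl u 1 ≠ 0) (hd : D.dlt P u 1 = 0)
    (hn : D.nu P u 1 = 0) : D.GP P u 1 = C (2 * D.dl u 1 ^ 2) *
      tPhi P (C D.l) (C D.al * X + C (D.pb u)) (C (-D.be) * X + C (D.rb u)) X
        (C (D.sb u) * X + C (D.om u)) := by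
  rw [GP_eq h, (hb.nline hM h hd hn).eq, sub_self, mul_zero, add_zero, C_mul, map_ofNat]
  ring

end field

end FP

end Vale.Agent.P297.Z2
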