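import Vale.Agent.P297.H637.Z2.Fam6B
import Vale.Agent.P297.H637.Z2.Cls

/-!
The specialisation of the family of the two-sections to twice a line over `y` and six lines
through the node.
-/

set_option linter.unusedSectionVars false
set_option linter.unusedVariables false
set_option linter.style.haveILetI false

open Polynomial

namespace Vale.Agent.P297.Z2

open Vale.Agent.P297 Vale.Agent.P297.Gen Vale.Agent.P297.H72 Vale.Agent.P297.H637
open Vale.Agent.P297.H160.Z2Irr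

/-- The form of the family. -/
noncomputable def SF6 (P : Par) : SForm2 13 9 where
  Φ := fun R _ _ c t g => (FP.of c).FF P t 1 (g 0) (g 1)
  nat := by
    intro R R' _ _ _ _ f c t g
    rw [FP.map_FF, map_one]
    rfl
  hom := by
    intro R _ _ c t g l
    exact FP.FF_smul P _ _ _ _ _ _

namespace FP

section more

variable {L : Type} [Field L] [Algebra ℂ L] {P : Par} {D : FP L}

theorem eval_GP' (u v y : L) : (D.GP P u v).eval y = D.gY P u v y := by
  unfold GP
  rw [← ev_apply, map_gY, map_C_ev, ev_apply, ev_apply, ev_apply, eval_C, eval_C, eval_X]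

theorem eval_HP' (u v y : L) : (D.HP P u v).eval y = D.hY P u v y := by
  unfold HP
  rw [← ev_apply, map_hY, map_C_ev, ev_apply, ev_apply, ev_apply, eval_C, eval_C, eval_X]

/-- Polynomials are determined by their values off the zeros of `δ`. -/
theorem eq_of_dl {f g : L[X]} (h : ∀ u, D.dl u 1 ≠ 0 → f.eval u = g.eval u) : f = g := by
  haveI : Infinite L := infL
  have h0 : (X ^ 2 - C D.b : L[X]) ≠ 0 := by
    intro h1
    have h2 := congrArg (fun q => q.coeff 2) h1
    simp [coeff_C] at h2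
  have h1 : f * (X ^ 2 - C D.b) = g * (X ^ 2 - C D.b) := Polynomial.funext fun u => by
    rw [eval_mul, eval_mul]
    by_cases hu : D.dl u 1 = 0
    · have h2 : (X ^ 2 - C D.b : L[X]).eval u = 0 := by
        rw [eval_sub, eval_pow, eval_X, eval_C]
        unfold dl at hu
        linear_combination hu
      rw [h2, mul_zero, mul_zero]
    · rw [h u hu]
  exact mul_right_cancel₀ h0 h1

/-- the point `(p, r, y, S)` of the line with parameter `u`, on the surface -/
noncomputable def qS (P : Par) (D : FP L) (u y : L) : Fin 5 → L :=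
  toS P D.l (D.al * y + D.pb u) (-D.be * y + D.rb u) y (D.sb u * y + D.om u)

/-- the point is good -/
def Gd (P : Par) (D : FP L) (u y : L) : Prop :=
  H55Z.Good P D.l (D.al * y + D.pb u) (-D.be * y + D.rb u) y (D.sb u * y + D.om u)

end more

section val

variable {K N N₁ : Type} [Field K] [Algebra ℂ K] [Field N] [Algebra ℂ N] [Field N₁] [Algebra ℂ N₁]
  [Algebra N N₁] [IsScalarTower ℂ N N₁] {V : Plc N N₁} {P : Par} {x₀ : Fin 5 → K}
  {c₀ : Fin 13 → N} {c₁ : Fin 13 → N₁} {r : N₁} {a : N}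

theorem val_FP (hc : ∀ i, V.Val (c₁ i) (c₀ i)) (hr : V.Val r a) :
    V.Val ((of c₁).dl r 1) ((of c₀).dl a 1) ∧ V.Val ((of c₁).pt r 1) ((of c₀).pt a 1) ∧
    V.Val ((of c₁).rt r 1) ((of c₀).rt a 1) ∧ V.Val ((of c₁).st r 1) ((of c₀).st a 1) ∧
    V.Val ((of c₁).wt r 1) ((of c₀).wt a 1) ∧
    V.Val ((of c₁).dlt P r 1) ((of c₀).dlt P a 1) ∧
    V.Val ((of c₁).nu P r 1) ((of c₀).nu P a 1) := by
  let T := VSub V
  let DT : FP T := of fun i => ⟨(c₁ i, c₀ i), hc i⟩
  let uT : T := ⟨(r, a), hr⟩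
  let f1 : T →ₐ[ℂ] N₁ := (AlgHom.fst ℂ N₁ N).comp T.val
  let f2 : T →ₐ[ℂ] N := (AlgHom.snd ℂ N₁ N).comp T.val
  have key : ∀ x : T, V.Val (f1 x) (f2 x) := fun x => x.2
  have g1 : f1 1 = 1 := map_one f1
  have g2 : f2 1 = 1 := map_one f2
  refine ⟨?_, ?_, ?_, ?_, ?_, ?_, ?_⟩
  · have h := key (DT.dl uT 1)
    have h1 := DT.map_dl (f1 : T →+* N₁) uT 1
    have h2 := DT.map_dl (f2 : T →+* N) uT 1
    simp only [RingHom.coe_coe, g1, g2] at h1 h2
    rw [← h1, ← h2] at h
    exact h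
  · have h := key (DT.pt uT 1)
    have h1 := DT.map_pt' (f1 : T →+* N₁) uT 1
    have h2 := DT.map_pt' (f2 : T →+* N) uT 1
    simp only [RingHom.coe_coe, g1, g2] at h1 h2
    rw [← h1, ← h2] at h
    exact h
  · have h := key (DT.rt uT 1)
    have h1 := DT.map_rt (f1 : T →+* N₁) uT 1
    have h2 := DT.map_rt (f2 : T →+* N) uT 1
    simp only [RingHom.coe_coe, g1, g2] at h1 h2
    rw [← h1, ← h2] at h
    exact h
  · have h := key (DT.st uT 1)
    have h1 := DT.map_st (f1 : T →+* N₁) uT 1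
    have h2 := DT.map_st (f2 : T →+* N) uT 1
    simp only [RingHom.coe_coe, g1, g2] at h1 h2
    rw [← h1, ← h2] at h
    exact h
  · have h := key (DT.wt uT 1)
    have h1 := DT.map_wt (f1 : T →+* N₁) uT 1
    have h2 := DT.map_wt (f2 : T →+* N) uT 1
    simp only [RingHom.coe_coe, g1, g2] at h1 h2
    rw [← h1, ← h2] at h
    exact h
  · have h := key (DT.dlt P uT 1)
    rw [map_dlt, map_dlt, g1, g2] at h
    exact h
  · have h := key (DT.nu P uT 1)
    rw [map_nu, map_nu, g1, g2] at h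
    exact h

/-- **The specialisation of a point of the family.** -/
theorem pt_spec (hx : H160.Z2Irr.IsFF P x₀) (hM : P.M1 = 0) (hc : ∀ i, V.Val (c₁ i) (c₀ i))
    (hb₁ : (of c₁).Base P) (hr : V.Val r a) (hd : (of c₀).dl a 1 ≠ 0)
    (hd₁ : (of c₁).dlt P r 1 ≠ 0) {y : N} (hy : V.Val ((of c₁).yy P r) y)
    (hg : (of c₀).Gd P a y) (hF : (of c₁).FE P r 1 = 0) :
    (H160.Z2Irr.pt x₀ ((of c₁).pS P r), H160.Z2Irr.pt x₀ ((of c₀).qS P a y)) ∈ SpecC K V ∧
      (of c₁).dl r 1 ≠ 0 ∧ (of c₁).Gd P r ((of c₁).yy P r) := by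
  haveI : CharZero N := charZ
  haveI : CharZero N₁ := charZ
  obtain ⟨v1, v2, v3, v4, v5, v6, v7⟩ := val_FP (P := P) hc hr
  have hd₁' : (of c₁).dl r 1 ≠ 0 := v1.ne_zero hd
  have w1 : V.Val ((of c₁).pb r) ((of c₀).pb a) := v2.div v1 hd
  have w2 : V.Val ((of c₁).rb r) ((of c₀).rb a) := v3.div v1 hd
  have w3 : V.Val ((of c₁).sb r) ((of c₀).sb a) := v4.div v1 hd
  have w4 : V.Val ((of c₁).om r) ((of c₀).om a) := (v5.div v1 hd).sub ((w1.pow 2).sub (w2.pow 2))
  have hl : V.Val (of c₁).l (of c₀).l := hc 0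
  have hal : V.Val (of c₁).al (of c₀).al := hc 1
  have hbe : V.Val (of c₁).be (of c₀).be := hc 2
  have hp := (hal.mul hy).add w1
  have hrr := (hbe.neg.mul hy).add w2
  have hS := (w3.mul hy).add w4
  obtain ⟨o1, o2⟩ := hb₁.on hM hd₁' hd₁ hF
  refine ⟨H55Z.specC_toS hx hl hp hrr hy hS hg o1 o2, hd₁', ?_⟩
  have hU := (H721.Z2.val_fU (P := P) hy).ne_zero hg.nU
  have hV := (H721.Z2.val_fV (P := P) hy).ne_zero hg.nV
  have hE := (H721.Z2.val_E (P := P) hp hy).ne_zero hg.nE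
  have hK := (H721.Z2.val_Kc hl hp hrr hy hS).ne_zero hg.nK
  have hh := (H721.Z2.val_h hl hy).ne_zero hg.nh
  exact ⟨hU, hV, hE, hK, hh, H721.Z2.genS_of_val (fun j => H55Z.val_toS hl hp hrr hy hS hg j)
    hg.gen (toS_E1 hU hV hE hK) (toS_E2 hU hV hE hK o2) (toS_E3 hU hV hE hK hh o1 o2)⟩

end val

end FP

end Vale.Agent.P297.Z2
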