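import Vale.Agent.P297.H72.Z2.TDefs

/-!
The equation of the surface in `T_l` on the branch `Σ = -(p ^ 2 - r ^ 2) + s`: modulo the equation
of `T_l` it is of degree two in `(p, r, s)`; the equation of `T_l` is cubic there.
-/

set_option linter.unusedSectionVars false
set_option linter.unusedVariables false

namespace Vale.Agent.P297.Z2

open Vale.Agent.P297.H160.Z2Irr

namespace Dat

section ring

variable {R : Type*} [CommRing R] (D : Dat R)

/-- `(g B U - h) / V` -/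
def al0 (l : R) : R :=
  D.B * D.U ^ 2 * D.e + D.A * D.B * D.U * D.V ^ 2 - 2 * D.A * D.B * D.U ^ 2 * D.V -
    D.A ^ 2 * D.V ^ 3 + D.a * D.B * D.U ^ 3 + D.c * D.A * D.U * D.V ^ 2 + D.m * D.U ^ 2 * D.V -
    l * D.U * D.g

/-- `(g A V - h) / U` -/
def be0 (l : R) : R :=
  D.A * D.V ^ 2 * D.e + D.A * D.B * D.U ^ 2 * D.V - 2 * D.A * D.B * D.U * D.V ^ 2 -
    D.B ^ 2 * D.U ^ 3 + D.a * D.B * D.U ^ 2 * D.V + D.c * D.A * D.V ^ 3 + D.m * D.U * D.V ^ 2 -
    l * D.V * D.g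

def Eh (δ p : R) : R := D.V * p + D.B * D.U * δ

def Fh (δ r : R) : R := D.U * r + D.A * D.V * δ

def kh (l δ p r : R) : R :=
  (D.a - l * D.U) * p + (D.c - l * D.V) * r + (l * D.e - D.m + 2 * D.A * D.B) * δ

/-- **The quadratic member**, homogenised by `δ`. -/
def QF (l δ p r s : R) : R :=
  2 * D.U * (D.kh l δ p r + s) * ((2 * D.g * D.B * D.U - D.h l) * p + D.B * D.U * D.al0 l * δ) +
    2 * D.V * (D.kh l δ p r - s) * ((2 * D.g * D.A * D.V - D.h l) * r + D.A * D.V * D.be0 l * δ) +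
    D.g * D.U * D.V * (s ^ 2 - D.kh l δ p r ^ 2 - 8 * D.A * D.B * p * r +
      4 * D.A ^ 2 * D.B ^ 2 * δ ^ 2 + 4 * (l ^ 2 - l) * D.Eh δ p * D.Fh δ r) +
    4 * l * D.g * (D.Eh δ p + D.Fh δ r) * (D.A * D.V * D.Eh δ p + D.B * D.U * D.Fh δ r) +
    (4 * D.h l - 8 * l * D.h l) * D.Eh δ p * D.Fh δ r - 8 * D.g * D.A * D.B * D.U * D.V * p * r +
    4 * D.B * D.U ^ 2 * D.al0 l * r ^ 2 + 4 * D.A * D.V ^ 2 * D.be0 l * p ^ 2 +
    4 * D.h l * (D.B * D.U + D.A * D.V) * p * r + 8 * D.g * D.A * D.B * D.Eh δ p * D.Fh δ r -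
    4 * D.h l * D.A * D.B * (D.Eh δ p + D.Fh δ r) * δ

/-- **The cubic**, homogenised by `δ`. -/
def CF (l δ p r s : R) : R :=
  -(2 * r ^ 2 * (D.kh l δ p r - s)) - 2 * p ^ 2 * (D.kh l δ p r + s) +
    δ * (s ^ 2 - D.kh l δ p r ^ 2) - 8 * D.A * D.B * p * r * δ + 4 * D.A ^ 2 * D.B ^ 2 * δ ^ 3 -
    4 * l * (p * r - D.A * D.B * δ ^ 2) * (D.Eh δ p + D.Fh δ r) +
    4 * (l ^ 2 - l) * D.Eh δ p * D.Fh δ r * δ

theorem CF_eq (l p r s : R) : D.CF l 1 p r s = (-(p ^ 2 - r ^ 2) + s) ^ 2 - D.Bq l p r := by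
  unfold CF kh Eh Fh Bq K J0 J1 N E F
  ring

theorem CF_smul (l t δ p r s : R) : D.CF l (t * δ) (t * p) (t * r) (t * s) =
    t ^ 3 * D.CF l δ p r s := by
  unfold CF kh Eh Fh
  ring

theorem QF_smul (l t δ p r s : R) : D.QF l (t * δ) (t * p) (t * r) (t * s) =
    t ^ 2 * D.QF l δ p r s := by
  unfold QF kh Eh Fh
  ring

theorem V_mul_al0 (l : R) : D.V * D.al0 l = D.g * D.B * D.U - D.h l := by
  unfold al0 h g
  ring

theorem U_mul_be0 (l : R) : D.U * D.be0 l = D.g * D.A * D.V - D.h l := by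
  unfold be0 h g
  ring

theorem QF_eq (l p r s : R) : D.QF l 1 p r s = 2 * D.Phi l p r (-(p ^ 2 - r ^ 2) + s) +
    D.g * D.U * D.V * ((-(p ^ 2 - r ^ 2) + s) ^ 2 - D.Bq l p r) := by
  have e1 : D.al l p = D.g * p + D.al0 l := by
    unfold al al0
    ring
  have e2 : D.be l r = D.g * r + D.be0 l := by
    unfold be be0
    ring
  have h1 := D.V_mul_al0 l
  have h2 := D.U_mul_be0 l
  unfold QF kh Eh Fh Phi Bq K J0 J1 N E F
  rw [e1, e2]
  generalize D.al0 l = α at *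
  generalize D.be0 l = β at *
  generalize D.g = g at *
  generalize D.h l = h at *
  linear_combination (-(2 * D.U * p * (2 * r ^ 2 + ((D.a - l * D.U) * p + (D.c - l * D.V) * r +
    (l * D.e - D.m + 2 * D.A * D.B)) + s))) * h1 -
    2 * D.V * r * (2 * p ^ 2 + ((D.a - l * D.U) * p + (D.c - l * D.V) * r +
    (l * D.e - D.m + 2 * D.A * D.B)) - s) * h2

end ring

end Dat

section par

variable {R : Type*} [CommRing R] [Algebra ℂ R] (P : Par)

/-- the quadratic member at `y` -/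
def tQd (l y δ p r s : R) : R := (dat P y).QF l δ p r s

/-- the cubic at `y` -/
def tCb (l y δ p r s : R) : R := (dat P y).CF l δ p r s

variable {R' : Type*} [CommRing R'] [Algebra ℂ R'] (f : R →ₐ[ℂ] R')

theorem map_tQd (l y δ p r s : R) : f (tQd P l y δ p r s) = tQd P (f l) (f y) (f δ) (f p) (f r) (f s) := by
  unfold tQd
  rw [← map_dat]
  simp only [Dat.QF, Dat.kh, Dat.Eh, Dat.Fh, Dat.al0, Dat.be0, Dat.g, Dat.h, Dat.map, map_add,
    map_sub, map_neg, map_mul, map_pow, map_ofNat]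

theorem map_tCb (l y δ p r s : R) : f (tCb P l y δ p r s) = tCb P (f l) (f y) (f δ) (f p) (f r) (f s) := by
  unfold tCb
  rw [← map_dat]
  simp only [Dat.CF, Dat.kh, Dat.Eh, Dat.Fh, Dat.map, map_add, map_sub, map_neg, map_mul, map_pow,
    map_ofNat]

theorem tQd_smul (l y t δ p r s : R) : tQd P l y (t * δ) (t * p) (t * r) (t * s) =
    t ^ 2 * tQd P l y δ p r s := Dat.QF_smul _ _ _ _ _ _ _

theorem tCb_smul (l y t δ p r s : R) : tCb P l y (t * δ) (t * p) (t * r) (t * s) =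
    t ^ 3 * tCb P l y δ p r s := Dat.CF_smul _ _ _ _ _ _ _

theorem tCb_eq (l y p r s : R) : tCb P l y 1 p r s =
    (-(p ^ 2 - r ^ 2) + s) ^ 2 - tB P l p r y := Dat.CF_eq _ _ _ _ _

theorem tQd_eq (l y p r s : R) : tQd P l y 1 p r s = 2 * tPhi P l p r y (-(p ^ 2 - r ^ 2) + s) +
    (dat P y).g * fU P y * fV P y * ((-(p ^ 2 - r ^ 2) + s) ^ 2 - tB P l p r y) :=
  Dat.QF_eq _ _ _ _ _

end par

end Vale.Agent.P297.Z2
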